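import Vale.Agent.P204.L.Nf

/-!
P204 L/Aside: the `L²` part applied to `d gam`.
Plan: `a y (d1 gam y) = a y (N y (th y))` (`anti` on `closedBall 0 3`, `exists_N2`; outside both
sides vanish by `Supp`), so it is bounded by `K ‖a y‖ / (‖y - x‖ + s)` on `closedBall x 8` and zero
outside (`norm_th`). `a_bdd`: `‖a‖ k ≤ (‖a‖² + k²) / 2`, `vol_kernel2`, `MemLp.integrable_sq` of
`ha.norm`, `norm_integral_le_of_norm_le`. `a_conv`: `tendsto_integral_of_dominated_convergence` with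
bound `indicator (closedBall x 8) (K (‖a‖² + 1 / ‖y - x‖²))` (`vol_kernel0`), limit
`a y (N y (th _ x 0 y))` for `y ≠ x` (`th_contAt`; points are null), measurability by
`AEStronglyMeasurable.clm_apply`-type lemmas (`isBoundedBilinearMap_apply.continuous`).
-/

namespace Vale.Agent.P204

open scoped ContDiff Topology
open Metric MeasureTheory Set Filter

noncomputable section

variable {D : Loc} {a : E → Bil →L[ℝ] ℝ}

/-- the truncated kernel -/
def kerAside (x y : E) : ℝ := if 0 < ‖y - x‖ ∧ ‖y - x‖ ≤ 8 then 1 / ‖y - x‖ ^ 2 else 0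

theorem ker_nonneg_Aside (x y : E) : 0 ≤ kerAside x y := by
  unfold kerAside
  split_ifs
  · positivity
  · exact le_rfl

theorem alg_Aside {A B c r s : ℝ} (hA : 0 ≤ A) (hB : 0 ≤ B) (hc : 0 ≤ c) (hr : 0 < r)
    (hs : 0 < s) : A * (B * (c / (r + s))) ≤ B * c * (A ^ 2 + 1 / r ^ 2) := by
  have h1 : c / (r + s) ≤ c * (1 / r) := by
    rw [mul_one_div]
    exact div_le_div_of_nonneg_left hc hr (by linarith)
  have h2 : A * (1 / r) ≤ A ^ 2 + 1 / r ^ 2 := by
    have h3 : 0 ≤ A * (1 / r) := by positivity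
    rw [← one_div_pow]
    nlinarith [sq_nonneg (A - 1 / r)]
  have h4 := mul_le_mul_of_nonneg_left h1 (mul_nonneg hA hB)
  have h5 := mul_le_mul_of_nonneg_left h2 (mul_nonneg hB hc)
  nlinarith

theorem Loc.Hyp.key_Aside (H : D.Hyp a) : ∃ (N : E → Cov →L[ℝ] Bil) (K : ℝ), 0 ≤ K ∧
    Continuous N ∧ ∀ x ∈ closedBall (0 : E) 2, ∀ s > 0,
      (∀ y, a y (d1 (D.gam x s) y) = a y (N y (th (D.g x) x s y))) ∧
      ∀ y, y ≠ x → ‖a y (N y (th (D.g x) x s y))‖ ≤ K * (‖a y‖ ^ 2 + kerAside x y) := by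
  obtain ⟨N, hN, h⟩ := D.exists_N2
  obtain ⟨B, hB, hb⟩ := jb_supp hN 0
  have hb' : ∀ y, ‖N y‖ ≤ B := fun y => ((JB_iff_SJB _ _ _ _).1 (hb y)).norm_le
  have h0 := D.herm 0 (mem_closedBall_self (by norm_num))
  have hC := h0.C_nonneg
  have hc : 0 < min D.c 1 := lt_min h0.cpos one_pos
  have hB0 : 0 ≤ B := by linarith
  have hc0 : 0 ≤ 2 * D.C / min D.c 1 := by positivity
  refine ⟨N, B * (2 * D.C / min D.c 1), by positivity, hN.1.continuous, fun x hx s hs => ?_⟩
  have hx3 : x ∈ closedBall (0 : E) 3 := closedBall_subset_closedBall (by norm_num) hx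
  refine ⟨fun y => ?_, fun y hy => ?_⟩
  · by_cases hy : y ∈ closedBall (0 : E) 3
    · rw [← H.anti y hy, h x hx3 s hs y]
    · have hy' : y ∉ closedBall (0 : E) (5 / 2) := fun e =>
        hy (closedBall_subset_closedBall (by norm_num) e)
      rw [(D.gam_supp hx3 hs).d1.1.2 y hy', hN.2 y hy', zero_apply]
  · by_cases hy' : y ∈ closedBall (0 : E) (5 / 2)
    · have hr : 0 < ‖y - x‖ := norm_pos_iff.2 (sub_ne_zero.2 hy)
      have hr' : ‖y - x‖ ≤ 8 := by
        rw [mem_closedBall_zero_iff] at hx hy'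
        linarith [norm_sub_le y x]
      rw [kerAside, if_pos ⟨hr, hr'⟩]
      refine le_trans ?_ (alg_Aside (norm_nonneg (a y)) hB0 hc0 hr hs)
      refine ((a y).le_opNorm _).trans (mul_le_mul_of_nonneg_left ?_ (norm_nonneg _))
      exact ((N y).le_opNorm _).trans
        (mul_le_mul (hb' y) ((D.herm x hx3).norm_th x y hs) (norm_nonneg _) hB0)
    · rw [hN.2 y hy', zero_apply, map_zero, norm_zero]
      have := ker_nonneg_Aside x y
      positivity

theorem ae_ne_Aside (x : E) : ∀ᵐ y ∂(volume : Measure E), y ≠ x := by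
  rw [ae_iff]
  simp

theorem Loc.Hyp.a_bdd (H : D.Hyp a) : ∃ K, ∀ x ∈ closedBall (0 : E) 2, ∀ s > 0,
    |∫ y, a y (d1 (D.gam x s) y)| ≤ K := by
  obtain ⟨N, K, hK, -, h⟩ := H.key_Aside
  have i1 : Integrable (fun y => ‖a y‖ ^ 2) := H.ha.norm.integrable_sq
  refine ⟨K * ((∫ y, ‖a y‖ ^ 2) +
    2 * (2 ^ 2 * (volume : Measure E).real (closedBall 0 1) * 8 ^ 4 / 8 ^ 2)),
    fun x hx s hs => ?_⟩
  obtain ⟨h1, h2⟩ := h x hx s hs
  have i2 : Integrable (kerAside x) := (ms1_vol0 x).1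
  have i3 : ∫ y, kerAside x y ≤ _ := (ms1_vol0 x).2
  simp only [h1]
  rw [← Real.norm_eq_abs]
  refine (norm_integral_le_of_norm_le (g := fun y => K * (‖a y‖ ^ 2 + kerAside x y))
    ((i1.add i2).const_mul K) ((ae_ne_Aside x).mono h2)).trans ?_
  rw [integral_const_mul, integral_add i1 i2]
  exact mul_le_mul_of_nonneg_left (by linarith) hK

theorem Loc.Hyp.a_conv (H : D.Hyp a) {x : E} (hx : x ∈ closedBall (0 : E) 2) :
    ∃ l, Tendsto (fun n => ∫ y, a y (d1 (D.gam x (sn n)) y)) atTop (𝓝 l) := by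
  obtain ⟨N, K, -, hN, h⟩ := H.key_Aside
  have i1 : Integrable (fun y => ‖a y‖ ^ 2) := H.ha.norm.integrable_sq
  have i2 : Integrable (kerAside x) := (ms1_vol0 x).1
  have hx3 : x ∈ closedBall (0 : E) 3 := closedBall_subset_closedBall (by norm_num) hx
  refine ⟨∫ y, a y (N y (th (D.g x) x 0 y)), ?_⟩
  have e : ∀ n, ∫ y, a y (d1 (D.gam x (sn n)) y) = ∫ y, a y (N y (th (D.g x) x (sn n) y)) :=
    fun n => by simp only [(h x hx _ (sn_pos n)).1]
  simp only [e]
  refine tendsto_integral_of_dominated_convergence (fun y => K * (‖a y‖ ^ 2 + kerAside x y))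
    (fun n => ?_) ((i1.add i2).const_mul K)
    (fun n => (ae_ne_Aside x).mono (h x hx _ (sn_pos n)).2) ((ae_ne_Aside x).mono fun y hy => ?_)
  · have c : Continuous fun y => N y (th (D.g x) x (sn n) y) :=
      hN.clm_apply ((D.herm x hx3).contDiff_th x (sn_pos n)).continuous
    exact isBoundedBilinearMap_apply.continuous.comp_aestronglyMeasurable
      (H.ha.1.prodMk c.aestronglyMeasurable)
  · exact ((a y).continuous.tendsto _).comp (((N y).continuous.tendsto _).comp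
      (((D.herm x hx3).th_contAt hy).tendsto.comp sn_lim))

end

end Vale.Agent.P204
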