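import Vale.Agent.P204.L.Th

/-!
P204 L/Bas: integrability, measurability and signs of the kernels.
Plan: `μ` is carried by the compact set `closedBall 0 3 ×ˢ closedBall 0 D.C`
(`Measure.restrict_eq_self_of_ae_mem`, `ContinuousOn.integrableOn_compact`). The kernels are
quotients of continuous functions (`Continuous.div` with `Qf_pos`, `Measurable.div` in general;
`Continuous.clm_apply`). `μ2_growth`: if the ball meets `closedBall 0 2` in `p` it is contained
in `closedBall p (2 r)`. `fatou_bd`: `lintegral_liminf_le'` and `ofReal_integral_eq_lintegral_ofReal`.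
-/

namespace Vale.Agent.P204

open scoped ContDiff Topology
open Metric MeasureTheory Set Filter

noncomputable section

theorem int_Bas {ν : Measure (E × E)} [IsFiniteMeasure ν] {r C : ℝ}
    (h : ∀ᵐ y ∂ν, y.1 ∈ closedBall (0 : E) r ∧ ‖y.2‖ ≤ C) {f : E × E → ℝ}
    (hf : ContinuousOn f (closedBall (0 : E) r ×ˢ closedBall (0 : E) C)) : Integrable f ν := by
  have hK : IsCompact (closedBall (0 : E) r ×ˢ closedBall (0 : E) C) :=
    (isCompact_closedBall _ _).prod (isCompact_closedBall _ _)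
  have h1 : IntegrableOn f (closedBall (0 : E) r ×ˢ closedBall (0 : E) C) ν :=
    hf.integrableOn_compact hK
  have h2 : ν.restrict (closedBall (0 : E) r ×ˢ closedBall (0 : E) C) = ν := by
    apply Measure.restrict_eq_self_of_ae_mem
    filter_upwards [h] with y hy
    exact ⟨hy.1, mem_closedBall_zero_iff.2 hy.2⟩
  rwa [IntegrableOn, h2] at h1

theorem del_Bas {X : Type} [TopologicalSpace X] {g : X → Bil} {J : X → End} {w z : X → E}
    (hg : Continuous g) (hJ : Continuous J) (hw : Continuous w) (hz : Continuous z) :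
    Continuous fun p => Del (g p) (J p) (w p) (z p) := by
  unfold Del
  exact ((((hg.clm_apply hw).clm_apply hw).mul ((hg.clm_apply hz).clm_apply hz)).sub
    (((hg.clm_apply hw).clm_apply hz).pow 2)).sub
    (((hg.clm_apply (hJ.clm_apply hw)).clm_apply hz).pow 2)

theorem bil_Bas {X : Type} [TopologicalSpace X] (b : Bil) {w z : X → E}
    (hw : Continuous w) (hz : Continuous z) : Continuous fun p => b (w p) (z p) :=
  (b.continuous.comp hw).clm_apply hz

theorem cf_Bas : Continuous cf := cf_spec.1.1.continuous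

theorem del0_Bas (g : Bil) (J : End) (w : E) : Del g J w 0 = 0 := by
  simp [Del]

namespace Loc

variable (D : Loc) {x : E} {s : ℝ}

theorem Q_Bas {X : Type} [TopologicalSpace X] {a b : X → E} (ha : Continuous a)
    (hb : Continuous b) (s : ℝ) : Continuous fun p => D.Q (a p) s (b p) := by
  unfold Q Qf
  exact (((D.g_smooth.continuous.comp ha).clm_apply (hb.sub ha)).clm_apply (hb.sub ha)).add
    continuous_const

theorem Qn_Bas (hx : x ∈ closedBall (0 : E) 3) (s : ℝ) (y : E) : 0 ≤ D.Q x s y :=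
  (sq_nonneg s).trans ((D.herm x hx).Qf_sq x y s)

theorem Qp_Bas (hx : x ∈ closedBall (0 : E) 3) (hs : 0 < s) (y : E) (k : ℕ) :
    D.Q x s y ^ k ≠ 0 := pow_ne_zero k ((D.herm x hx).Qf_pos x y hs).ne'

theorem Qc_Bas (x : E) (s : ℝ) (k : ℕ) : Continuous fun y : E × E => D.Q x s y.1 ^ k :=
  (D.Q_Bas continuous_const continuous_fst s).pow k

theorem int_cont {f : E × E → ℝ} (hf : Continuous f) : Integrable f D.μ :=
  int_Bas (r := 3) (C := D.C) (D.supp.mono fun _ hy => ⟨hy.1, hy.2.2⟩) hf.continuousOn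

theorem ae_μ2 : ∀ᵐ y ∂D.μ2, y.1 ∈ closedBall (0 : E) 2 ∧ D.c ≤ ‖y.2‖ ∧ ‖y.2‖ ≤ D.C := by
  have h1 : ∀ᵐ y ∂D.μ2, y ∈ Prod.fst ⁻¹' closedBall (0 : E) 2 :=
    ae_restrict_mem (measurable_fst measurableSet_closedBall)
  have h2 : ∀ᵐ y ∂D.μ2, y.1 ∈ closedBall (0 : E) 3 ∧ D.c ≤ ‖y.2‖ ∧ ‖y.2‖ ≤ D.C :=
    ae_restrict_of_ae D.supp
  filter_upwards [h1, h2] with y hy hy'
  exact ⟨hy, hy'.2⟩

theorem int_μ2 {f : E × E → ℝ} (hf : ContinuousOn f (ball (0 : E) 3 ×ˢ univ)) :
    Integrable f D.μ2 :=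
  int_Bas (r := 2) (C := D.C) (D.ae_μ2.mono fun _ hy => ⟨hy.1, hy.2.2⟩)
    (hf.mono (prod_mono (closedBall_subset_ball (by norm_num)) (subset_univ _)))

theorem μ2_growth {Θ : ℝ} (h0 : 0 ≤ Θ)
    (h : ∀ x ∈ closedBall (0 : E) 2, ∀ s > 0, bm D.μ x s ≤ Θ * s ^ 2) (y : E) (r : ℝ)
    (hr : 0 < r) : bm D.μ2 y r ≤ 4 * Θ * r ^ 2 := by
  unfold bm μ2
  rw [measureReal_restrict_apply (measurable_fst measurableSet_closedBall)]
  by_cases hne : (closedBall y r ∩ closedBall (0 : E) 2).Nonempty
  · obtain ⟨p, hp, hp2⟩ := hne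
    have h1 : (Prod.fst ⁻¹' closedBall y r ∩ Prod.fst ⁻¹' closedBall (0 : E) 2 : Set (E × E)) ⊆
        Prod.fst ⁻¹' closedBall p (2 * r) := by
      intro z hz
      have h2 := dist_triangle_right z.1 p y
      have h3 : dist z.1 y ≤ r := hz.1
      have h4 : dist p y ≤ r := hp
      change dist z.1 p ≤ 2 * r
      linarith
    have h5 := h p hp2 (2 * r) (by positivity)
    calc _ ≤ bm D.μ p (2 * r) := measureReal_mono h1
      _ ≤ Θ * (2 * r) ^ 2 := h5
      _ = _ := by ring
  · rw [← preimage_inter, not_nonempty_iff_eq_empty.1 hne, preimage_empty, measureReal_empty]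
    positivity

theorem lin_cont {σ : E → Bil} (hσ : Continuous σ) : Continuous (D.lin σ) := by
  unfold lin
  exact ((hσ.comp continuous_fst).clm_apply continuous_snd).clm_apply
    ((D.J_smooth.continuous.comp continuous_fst).clm_apply continuous_snd)

theorem lamI_cont (hx : x ∈ closedBall (0 : E) 3) (hs : 0 < s) : Continuous (D.lamI s x) := by
  unfold lamI
  exact ((cf_Bas.comp continuous_fst).mul ((bil_Bas _ continuous_snd continuous_snd).mul
    continuous_const)).div (D.Qc_Bas x s 2) fun y => D.Qp_Bas hx hs y.1 2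

theorem ppI_cont (hx : x ∈ closedBall (0 : E) 3) (hs : 0 < s) : Continuous (D.ppI s x) := by
  unfold ppI
  exact ((cf_Bas.comp continuous_fst).mul (del_Bas continuous_const continuous_const
    continuous_snd (continuous_fst.sub continuous_const))).div (D.Qc_Bas x s 2)
    fun y => D.Qp_Bas hx hs y.1 2

theorem eI_cont (hx : x ∈ closedBall (0 : E) 3) (hs : 0 < s) : Continuous (D.eI s x) := by
  unfold eI
  exact ((cf_Bas.comp continuous_fst).mul (continuous_const.mul (del_Bas continuous_const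
    continuous_const continuous_snd (continuous_fst.sub continuous_const)))).div (D.Qc_Bas x s 3)
    fun y => D.Qp_Bas hx hs y.1 3

theorem fI_cont (hx : x ∈ closedBall (0 : E) 3) (hs : 0 < s) (v : E) :
    Continuous (D.fI s x v) := by
  unfold fI
  exact ((cf_Bas.comp continuous_fst).mul (continuous_const.mul (del_Bas continuous_const
    continuous_const continuous_snd continuous_const))).div (D.Qc_Bas x s 3)
    fun y => D.Qp_Bas hx hs y.1 3

theorem dlamI_cont (hx : x ∈ closedBall (0 : E) 3) (hs : 0 < s) (v : E) :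
    Continuous (D.dlamI s x v) := by
  unfold dlamI
  have hz : Continuous fun y : E × E => y.1 - x := continuous_fst.sub continuous_const
  exact (((cf_Bas.comp continuous_fst).mul ((bil_Bas _ continuous_snd continuous_snd).mul
    continuous_const)).div (D.Qc_Bas x s 2) fun y => D.Qp_Bas hx hs y.1 2).sub
    (((continuous_const.mul ((cf_Bas.comp continuous_fst).mul
      ((bil_Bas _ continuous_snd continuous_snd).mul continuous_const))).mul
      ((bil_Bas _ hz hz).sub (continuous_const.mul (bil_Bas _ hz continuous_const)))).div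
      (D.Qc_Bas x s 3) fun y => D.Qp_Bas hx hs y.1 3)

theorem ppI_meas (s : ℝ) (x : E) : Measurable (D.ppI s x) := by
  unfold ppI
  exact ((cf_Bas.comp continuous_fst).mul (del_Bas continuous_const continuous_const
    continuous_snd (continuous_fst.sub continuous_const))).measurable.div
    (D.Qc_Bas x s 2).measurable

theorem eI_meas (s : ℝ) : Measurable fun p : (E × E) × E × E => D.eI s p.1.1 p.2 := by
  unfold eI
  have h1 : Continuous fun p : (E × E) × E × E => p.1.1 := continuous_fst.comp continuous_fst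
  have h2 : Continuous fun p : (E × E) × E × E => p.2.1 := continuous_fst.comp continuous_snd
  have h3 : Continuous fun p : (E × E) × E × E => p.2.2 := continuous_snd.comp continuous_snd
  exact ((cf_Bas.comp h2).mul (continuous_const.mul (del_Bas (D.g_smooth.continuous.comp h1)
    (D.J_smooth.continuous.comp h1) h3 (h2.sub h1)))).measurable.div
    ((D.Q_Bas h1 h2 s).pow 3).measurable

theorem fI_meas (s : ℝ) : Measurable fun p : (E × E) × E × E => D.fI s p.1.1 p.1.2 p.2 := by
  unfold fI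
  have h1 : Continuous fun p : (E × E) × E × E => p.1.1 := continuous_fst.comp continuous_fst
  have h2 : Continuous fun p : (E × E) × E × E => p.2.1 := continuous_fst.comp continuous_snd
  have h3 : Continuous fun p : (E × E) × E × E => p.2.2 := continuous_snd.comp continuous_snd
  have h4 : Continuous fun p : (E × E) × E × E => p.1.2 := continuous_snd.comp continuous_fst
  exact ((cf_Bas.comp h2).mul (continuous_const.mul (del_Bas (D.g_smooth.continuous.comp h1)
    (D.J_smooth.continuous.comp h1) h3 h4))).measurable.div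
    ((D.Q_Bas h1 h2 s).pow 3).measurable

theorem Del_cont :
    Continuous fun p : (E × E) × E × E => Del (D.g p.1.1) (D.J p.1.1) p.1.2 p.2.2 :=
  del_Bas (D.g_smooth.continuous.comp (continuous_fst.comp continuous_fst))
    (D.J_smooth.continuous.comp (continuous_fst.comp continuous_fst))
    (continuous_snd.comp continuous_fst) (continuous_snd.comp continuous_snd)

theorem lamI_nonneg (hx : x ∈ closedBall (0 : E) 3) (s : ℝ) (y : E × E) : 0 ≤ D.lamI s x y :=
  div_nonneg (mul_nonneg (cf_spec.2.1 _) (mul_nonneg ((D.herm x hx).nn_Alg2 _) (sq_nonneg _)))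
    (sq_nonneg _)

theorem ppI_nonneg (hx : x ∈ closedBall (0 : E) 3) (s : ℝ) (y : E × E) : 0 ≤ D.ppI s x y :=
  div_nonneg (mul_nonneg (cf_spec.2.1 _) ((D.herm x hx).Del_nonneg _ _)) (sq_nonneg _)

theorem eI_nonneg (hx : x ∈ closedBall (0 : E) 3) (s : ℝ) (y : E × E) : 0 ≤ D.eI s x y :=
  div_nonneg (mul_nonneg (cf_spec.2.1 _) (mul_nonneg (sq_nonneg _) ((D.herm x hx).Del_nonneg _ _)))
    (pow_nonneg (D.Qn_Bas hx s _) 3)

theorem fI_nonneg (hx : x ∈ closedBall (0 : E) 3) (s : ℝ) (v : E) (y : E × E) :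
    0 ≤ D.fI s x v y :=
  div_nonneg (mul_nonneg (cf_spec.2.1 _) (mul_nonneg (sq_nonneg _) ((D.herm x hx).Del_nonneg _ _)))
    (pow_nonneg (D.Qn_Bas hx s _) 3)

theorem ppI_le (hx : x ∈ closedBall (0 : E) 3) (s : ℝ) (y : E × E) :
    D.ppI s x y ≤ D.ppI 0 x y := by
  unfold ppI
  by_cases hy : y.1 = x
  · rw [hy, sub_self, del0_Bas, mul_zero, zero_div, zero_div]
  · have h0 : 0 < D.Q x 0 y.1 := (D.herm x hx).Qf_pos' hy 0
    have h1 : D.Q x 0 y.1 ≤ D.Q x s y.1 := by
      unfold Q Qf
      nlinarith [sq_nonneg s]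
    exact div_le_div_of_nonneg_left
      (mul_nonneg (cf_spec.2.1 _) ((D.herm x hx).Del_nonneg _ _)) (pow_pos h0 2)
      (pow_le_pow_left₀ h0.le h1 2)

theorem ppI_lim (hx : x ∈ closedBall (0 : E) 3) (y : E × E) :
    Tendsto (fun n => D.ppI (sn n) x y) atTop (𝓝 (D.ppI 0 x y)) := by
  unfold ppI
  by_cases hy : y.1 = x
  · simp only [hy, sub_self, del0_Bas, mul_zero, zero_div]
    exact tendsto_const_nhds
  · have h0 : 0 < D.Q x 0 y.1 := (D.herm x hx).Qf_pos' hy 0
    have h1 : Continuous fun s : ℝ => D.Q x s y.1 ^ 2 := by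
      unfold Q Qf
      exact (continuous_const.add (continuous_pow 2)).pow 2
    exact tendsto_const_nhds.div ((h1.tendsto 0).comp sn_lim) (pow_pos h0 2).ne'

theorem Lam_nonneg (hx : x ∈ closedBall (0 : E) 3) (s : ℝ) : 0 ≤ D.Lam s x :=
  integral_nonneg (D.lamI_nonneg hx s)

theorem Pp_nonneg (hx : x ∈ closedBall (0 : E) 3) (s : ℝ) : 0 ≤ D.Pp s x :=
  integral_nonneg (D.ppI_nonneg hx s)

end Loc

theorem bm_eq (μ : Measure (E × E)) (x : E) (r : ℝ) :
    μ.real {y : E × E | ‖y.1 - x‖ ≤ r} = bm μ x r := by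
  unfold bm
  refine congrArg μ.real ?_
  ext y
  simp only [mem_setOf_eq, mem_preimage, mem_closedBall, dist_eq_norm]

theorem fatou_bd {X : Type} [MeasurableSpace X] {μ : Measure X} {f : ℕ → X → ℝ} {g : X → ℝ}
    {K : ℝ} (h0 : ∀ n x, 0 ≤ f n x) (hi : ∀ n, Integrable (f n) μ) (hK : ∀ n, ∫ x, f n x ∂μ ≤ K)
    (hl : ∀ x, Tendsto (fun n => f n x) atTop (𝓝 (g x))) :
    Integrable g μ ∧ ∫ x, g x ∂μ ≤ K := by
  have hg0 : ∀ x, 0 ≤ g x := fun x => ge_of_tendsto' (hl x) fun n => h0 n x
  have hK0 : 0 ≤ K := (integral_nonneg (h0 0)).trans (hK 0)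
  have hgm : AEStronglyMeasurable g μ :=
    aestronglyMeasurable_of_tendsto_ae atTop (fun n => (hi n).aestronglyMeasurable)
      (Eventually.of_forall hl)
  have h1 : ∫⁻ x, ENNReal.ofReal (g x) ∂μ ≤ ENNReal.ofReal K := by
    have h2 : ∀ x, ENNReal.ofReal (g x) = liminf (fun n => ENNReal.ofReal (f n x)) atTop :=
      fun x => (ENNReal.tendsto_ofReal (hl x)).liminf_eq.symm
    simp only [h2]
    refine (lintegral_liminf_le' fun n => (hi n).aemeasurable.ennreal_ofReal).trans ?_
    refine liminf_le_of_frequently_le' (Frequently.of_forall fun n => ?_)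
    rw [← ofReal_integral_eq_lintegral_ofReal (hi n) (Eventually.of_forall (h0 n))]
    exact ENNReal.ofReal_le_ofReal (hK n)
  refine ⟨⟨hgm, ?_⟩, ?_⟩
  · rw [hasFiniteIntegral_iff_ofReal (Eventually.of_forall hg0)]
    exact h1.trans_lt ENNReal.ofReal_lt_top
  · rw [integral_eq_lintegral_of_nonneg_ae (Eventually.of_forall hg0) hgm]
    exact ENNReal.toReal_le_of_le_ofReal hK0 h1

end

end Vale.Agent.P204
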