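import Vale.Agent.P204.L.Tst

/-!
P204 L/DPt: the pointwise derivative identity.
Plan: `B = g x`, `w = y.2`, `J y w = J x w + r`, `‖r‖ ≤ L ‖z‖ C` (`J_lip`; if `y.1` is outside
`closedBall 0 (5/2)` everything vanishes: `cf_ne`, `cf_far`). By `d1_tst`, `inv`, `symm`, `skew_Alg2`
the sum equals `4 cf s² / Q³ (B w w B z v - B w z B w v - B (J w) z B (J w) v)` plus
(i) the two `fderiv g` terms and the `r` terms, each `≤ K ‖v‖ cf s² / Q²` (`‖z‖² ≤ Q / κ`,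
`dg_bd`) and `cf s² / Q² ≤ lamI / c³`; (ii) the `fderiv cf` terms, nonzero only if `‖z‖ ≥ 1/4`, so
`≤ K ‖v‖ s²`. Main term: `Herm.Del_cs` and `2 √A √B ≤ A / ε + ε B`. It pays to prove first a
lemma on real numbers / an `abs_add_le` chain with named pieces.
-/

namespace Vale.Agent.P204

open scoped ContDiff Topology
open Metric MeasureTheory Set Filter

noncomputable section

theorem bil_DPt (B : Bil) {C a b : ℝ} (hB : ‖B‖ ≤ C) {u v : E} (hu : ‖u‖ ≤ a) (hv : ‖v‖ ≤ b) :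
    |B u v| ≤ C * a * b := by
  have h := B.le_opNorm₂ u v
  rw [Real.norm_eq_abs] at h
  have h1 := (norm_nonneg _).trans hB
  have h2 := (norm_nonneg _).trans hu
  exact h.trans (by gcongr)

theorem app_DPt {F : Type} [NormedAddCommGroup F] [NormedSpace ℝ F] (A : E →L[ℝ] F) {C a : ℝ}
    (hA : ‖A‖ ≤ C) {u : E} (hu : ‖u‖ ≤ a) : ‖A u‖ ≤ C * a := by
  have h1 := (norm_nonneg _).trans hA
  exact (A.le_opNorm u).trans (by gcongr)

theorem mul_DPt {a b A B : ℝ} (ha : |a| ≤ A) (hb : |b| ≤ B) : |a * b| ≤ A * B := by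
  rw [abs_mul]
  exact mul_le_mul ha hb (abs_nonneg _) ((abs_nonneg _).trans ha)

theorem sq_DPt {a b ε : ℝ} (ha : 0 ≤ a) (hb : 0 ≤ b) (hε : 0 < ε) :
    4 * (√a * √b) ≤ 2 / ε * a + 2 * ε * b := by
  have h1 := Real.sq_sqrt ha
  have h2 := Real.sq_sqrt hb
  have h3 : 0 ≤ 2 / ε * (√a - ε * √b) ^ 2 := by positivity
  have h4 : 2 / ε * (√a - ε * √b) ^ 2 = 2 / ε * √a ^ 2 - 4 * (√a * √b) + 2 * ε * √b ^ 2 := by
    field_simp
    ring
  rw [h4, h1, h2] at h3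
  linarith

theorem real_DPt {A q t M e1 e2 e3 a b ε k1 k2 k3 n κ z lam c : ℝ} (hA : 0 ≤ A) (hq : 0 ≤ q)
    (ht : 0 ≤ t) (hM : 4 * |M| ≤ 2 / ε * a + 2 * ε * b) (h1 : |e1| ≤ k1 * n)
    (h2 : |e2| ≤ k2 * n * z) (h3 : |q ^ 2 * e3| ≤ k3 * n) (hz : q * z ≤ κ) (hk1 : 0 ≤ k1)
    (hk2 : 0 ≤ k2) (hk3 : 0 ≤ k3) (hκ : 0 ≤ κ) (hn : 0 ≤ n) (hc : 0 ≤ c) (hl : A ≤ c * lam)
    (hl0 : 0 ≤ lam) :
    |A * q * (4 * M) + A * e1 + A * q * e2 + t * (q ^ 2 * e3)| ≤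
      2 / ε * (A * q * a) + 2 * ε * (A * q * b) +
        ((k1 + k2 * κ) * c + k3) * n * (lam + t) := by
  have hAq : 0 ≤ A * q := mul_nonneg hA hq
  have a0 : |A * q * (4 * M)| ≤ 2 / ε * (A * q * a) + 2 * ε * (A * q * b) := by
    rw [abs_mul, abs_of_nonneg hAq, abs_mul, abs_of_pos (by norm_num : (0 : ℝ) < 4)]
    have := mul_le_mul_of_nonneg_left hM hAq
    linarith
  have a1 : |A * e1| ≤ c * lam * (k1 * n) := mul_DPt (by rwa [abs_of_nonneg hA]) h1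
  have a2 : |A * q * e2| ≤ c * lam * (k2 * n * κ) := by
    rw [mul_assoc]
    refine mul_DPt (by rwa [abs_of_nonneg hA]) ?_
    rw [abs_mul, abs_of_nonneg hq]
    have b1 := mul_le_mul_of_nonneg_left h2 hq
    have b2 := mul_le_mul_of_nonneg_left hz (mul_nonneg hk2 hn)
    linarith
  have a3 : |t * (q ^ 2 * e3)| ≤ t * (k3 * n) := mul_DPt (abs_of_nonneg ht).le h3
  have b1 := abs_add_le (A * q * (4 * M) + A * e1 + A * q * e2) (t * (q ^ 2 * e3))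
  have b2 := abs_add_le (A * q * (4 * M) + A * e1) (A * q * e2)
  have b3 := abs_add_le (A * q * (4 * M)) (A * e1)
  have c1 : 0 ≤ (k1 + k2 * κ) * c * n * t := by positivity
  have c2 : 0 ≤ k3 * n * lam := by positivity
  nlinarith

theorem Loc.tst_lin (D : Loc) : ∃ K ≥ 0, ∀ x ∈ closedBall (0 : E) 2, ∀ s ∈ Ioc (0 : ℝ) 1,
    ∀ (v : E) (y : E × E), D.c ≤ ‖y.2‖ → ‖y.2‖ ≤ D.C → ∀ ε > 0,
      |D.dlamI s x v y + D.lin (d1 (D.tst x s v)) y| ≤
        2 / ε * D.eI s x y + 2 * ε * D.fI s x v y + K * ‖v‖ * (D.lamI s x y + s ^ 2) := by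
  obtain ⟨Kc, hKc, hcf⟩ := cf_far
  obtain ⟨L, hL, hJ⟩ := D.J_lip
  obtain ⟨G, hG, hg⟩ := D.dg_bd
  obtain ⟨κ, hκ, hQ⟩ := D.Q_lower
  have h0 := D.herm 0 (mem_closedBall_self (by norm_num))
  have hC := h0.C_nonneg
  have hc := h0.cpos
  refine ⟨(G * D.C ^ 2 + (2 * D.C ^ 3 * G + 8 * D.C ^ 5 * L) * κ⁻¹) * (D.c ^ 3)⁻¹ +
    (16 / κ) ^ 2 * (2 * Kc * D.C ^ 5), by positivity, ?_⟩
  rintro x hx s hs v ⟨p, w⟩ hw1 hw2 ε hε
  have hx3 : x ∈ closedBall (0 : E) 3 := closedBall_subset_closedBall (by norm_num) hx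
  have H := D.herm x hx3
  have hQ0 : 0 < D.Q x s p := H.Qf_pos x p hs.1
  have hl0 := D.lamI_nonneg hx3 s (p, w)
  simp only at hw1 hw2
  by_cases hz : cf p = 0 ∧ fderiv ℝ cf p = 0
  · have e1 := D.eI_nonneg hx3 s (p, w)
    have e2 := D.fI_nonneg hx3 s v (p, w)
    simp only [Loc.dlamI, Loc.lin, D.d1_tst hx3 hs.1, Loc.dps, hz.1, hz.2, zero_mul, zero_div,
      mul_zero, zero_apply, sub_self, add_zero, abs_zero]
    positivity
  have hp : ‖p‖ ≤ 5 / 2 := by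
    by_cases h1 : cf p = 0
    · exact ((hcf p).2 fun h2 => hz ⟨h1, h2⟩).2
    · exact cf_ne h1
  have hp3 : p ∈ closedBall (0 : E) 3 := by
    rw [mem_closedBall_zero_iff]; linarith
  have Hp := D.herm p hp3
  obtain ⟨r, hr⟩ : ∃ r, r = (D.J p - D.J x) w := ⟨_, rfl⟩
  have hrn : ‖r‖ ≤ L * ‖p - x‖ * D.C := hr ▸ app_DPt _ (hJ x hx3 p hp3) hw2
  have hJw : D.J p w = D.J x w + r := by rw [hr, sub_apply]; abel
  have hG' : ‖fderiv ℝ D.g x v‖ ≤ G * ‖v‖ := app_DPt _ (hg x hx3) le_rfl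
  have hJv : ‖D.J x v‖ ≤ D.C * ‖v‖ := app_DPt _ H.Jle le_rfl
  have hJp : ‖D.J p w‖ ≤ D.C * D.C := app_DPt _ Hp.Jle hw2
  have hκQ := hQ x hx3 s hs.1.le p
  have key := real_DPt (A := cf p * s ^ 2 / D.Q x s p ^ 2) (q := (D.Q x s p)⁻¹) (t := s ^ 2)
    (M := D.g x w w * D.g x (p - x) v - D.g x w (p - x) * D.g x w v -
      D.g x (D.J x w) (p - x) * D.g x (D.J x w) v)
    (e1 := fderiv ℝ D.g x v w w)
    (e2 := -(2 * (D.g x w w * fderiv ℝ D.g x v (p - x) (p - x))) -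
      4 * (D.g x (p - x) w * D.g x (D.J x v) r) + 4 * (D.g x (D.J x v) w * D.g x (p - x) r))
    (e3 := fderiv ℝ cf p w * D.g x (D.J x v) (D.J p w) -
      D.g x (D.J x v) w * fderiv ℝ cf p (D.J p w))
    (a := Del (D.g x) (D.J x) w (p - x)) (b := Del (D.g x) (D.J x) w v) (ε := ε)
    (k1 := G * D.C ^ 2) (k2 := 2 * D.C ^ 3 * G + 8 * D.C ^ 5 * L)
    (k3 := (16 / κ) ^ 2 * (2 * Kc * D.C ^ 5)) (n := ‖v‖) (κ := κ⁻¹) (z := ‖p - x‖ ^ 2)
    (lam := D.lamI s x (p, w)) (c := (D.c ^ 3)⁻¹)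
    (div_nonneg (mul_nonneg (cf_spec.2.1 p) (sq_nonneg _)) (sq_nonneg _)) (inv_nonneg.2 hQ0.le)
    (sq_nonneg _)
    ((mul_le_mul_of_nonneg_left (H.Del_cs w (p - x) v) (by norm_num)).trans
      (sq_DPt (H.Del_nonneg _ _) (H.Del_nonneg _ _) hε))
    ((bil_DPt _ hG' hw2 hw2).trans (le_of_eq (by ring))) ?_ ?_ ?_ (by positivity) (by positivity)
    (by positivity) (by positivity) (norm_nonneg _) (by positivity) ?_ hl0
  · refine le_of_eq_of_le ?_ (key.trans (le_of_eq ?_))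
    · congr 1
      have i1 : D.g x (D.J x v) (D.J p w) = D.g x w v + D.g x (D.J x v) r := by
        rw [hJw, map_add, H.inv, H.symm v w]
      have i2 : D.g x (D.J x v) w = -D.g x (D.J x w) v := by
        rw [H.skew_Alg2, H.symm v]
      have i3 : D.g x (p - x) (D.J p w) = D.g x (D.J x w) (p - x) + D.g x (p - x) r := by
        rw [hJw, map_add, H.symm (p - x) (D.J x w)]
      simp only [Loc.dlamI, Loc.lin, D.d1_tst hx3 hs.1, Loc.dps, i1, i2, i3, H.symm w (p - x)]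
      field_simp
      ring
    · simp only [Loc.eI, Loc.fI]
      field_simp
  · have b1 := mul_DPt (bil_DPt _ H.gle hw2 hw2)
      (bil_DPt _ hG' (le_refl ‖p - x‖) (le_refl ‖p - x‖))
    have b2 := mul_DPt (bil_DPt _ H.gle (le_refl ‖p - x‖) hw2) (bil_DPt _ H.gle hJv hrn)
    have b3 := mul_DPt (bil_DPt _ H.gle hJv hw2) (bil_DPt _ H.gle (le_refl ‖p - x‖) hrn)
    rw [abs_le] at b1 b2 b3 ⊢
    constructor <;> linarith only [b1.1, b1.2, b2.1, b2.2, b3.1, b3.2]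
  · by_cases h2 : fderiv ℝ cf p = 0
    · simp only [h2, zero_apply, zero_mul, mul_zero, sub_self, abs_zero]
      positivity
    have h3 := ((hcf p).2 h2).1
    have h4 : 1 / 4 ≤ ‖p - x‖ + s := by
      have := norm_sub_norm_le p x
      rw [mem_closedBall_zero_iff] at hx
      linarith [hs.1]
    have h5 : (D.Q x s p)⁻¹ ≤ 16 / κ := by
      rw [inv_eq_one_div, div_le_div_iff₀ hQ0 hκ]
      have : κ * (1 / 4) ^ 2 ≤ κ * (‖p - x‖ + s) ^ 2 := by gcongr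
      linarith
    rw [mul_assoc]
    refine mul_DPt ?_ ?_
    · rw [abs_of_nonneg (sq_nonneg _)]
      have := inv_nonneg.2 hQ0.le
      gcongr
    · have c1 : |fderiv ℝ cf p w| ≤ Kc * D.C := app_DPt _ (hcf p).1 hw2
      have c2 : |fderiv ℝ cf p (D.J p w)| ≤ Kc * (D.C * D.C) := app_DPt _ (hcf p).1 hJp
      have b1 := mul_DPt c1 (bil_DPt _ H.gle hJv hJp)
      have b2 := mul_DPt (bil_DPt _ H.gle hJv hw2) c2
      rw [abs_le] at b1 b2 ⊢
      constructor <;> linarith only [b1.1, b1.2, b2.1, b2.2]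
  · rw [inv_mul_le_iff₀ hQ0, le_mul_inv_iff₀ hκ]
    have : ‖p - x‖ ^ 2 ≤ (‖p - x‖ + s) ^ 2 := by
      have := hs.1
      gcongr
      linarith
    have := mul_le_mul_of_nonneg_left this hκ.le
    linarith only [this, hκQ]
  · have h1 : D.c ^ 3 ≤ D.g x w w := by
      have h1 : D.c * D.c ^ 2 ≤ D.c * ‖w‖ ^ 2 := by gcongr
      linarith only [h1, H.pos w]
    have h2 : 0 ≤ cf p * s ^ 2 / D.Q x s p ^ 2 :=
      div_nonneg (mul_nonneg (cf_spec.2.1 p) (sq_nonneg _)) (sq_nonneg _)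
    rw [le_inv_mul_iff₀ (by positivity)]
    have h3 : D.lamI s x (p, w) = D.g x w w * (cf p * s ^ 2 / D.Q x s p ^ 2) := by
      simp only [Loc.lamI]; ring
    rw [h3]
    exact mul_le_mul_of_nonneg_right h1 h2

end

end Vale.Agent.P204
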