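import Vale.Agent.P204.L.Lim

/-!
P204 L/Dbl: the two double integrals.
Plan: `dbl`: let `ν = (μ2.prod μ).withDensity (ofReal Del)` (finite: `Del` is bounded a.e. by
`Del_le`, `ae_μ2`, `D.supp`; `isFiniteMeasure_withDensity_ofReal`), `ζ p = ‖p.2.1 - p.1.1‖`.
`ν.real {ζ ≤ r}` is the iterated integral of `hI` (`withDensity_apply`, `integral_prod`,
`integral_indicator`), so it is `≤ (|C| + ν univ / r₀ ^ 4) r ^ 4` for all `r > 0`; `dy_tail 6 4`;
`fI ≤ κ⁻¹ ^ 3 s² Del / (ζ + s) ^ 6` (`Q_lower`, `Del_symm`), `integral_withDensity_eq_integral_toReal_smul`,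
`integral_prod`, `Integrable.integral_prod_left`. `es`: `0 ≤ eI s ≤ ppI 0` (`Qf_sq`, `ppI_le`),
`eI (sn n) → 0` pointwise (`Del w 0 = 0`; else `Qf_pos'`), dominated convergence twice (`ppM`,
`eI_meas`, `StronglyMeasurable.integral_prod_right'`).
-/

namespace Vale.Agent.P204

open scoped ContDiff Topology
open Metric MeasureTheory Set Filter

noncomputable section

variable {D : Loc} {a : E → Bil →L[ℝ] ℝ}

theorem wd_Dbl {X : Type} [MeasurableSpace X] : ∃ C > 0, ∀ (μ : Measure X) (Δ ζ : X → ℝ),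
    Measurable Δ → Integrable Δ μ → (∀ᵐ p ∂μ, 0 ≤ Δ p) → Measurable ζ → (∀ p, 0 ≤ ζ p) →
    ∀ Θ s : ℝ, 0 < s → (∀ r > 0, ∫ p in {p | ζ p ≤ r}, Δ p ∂μ ≤ Θ * r ^ 4) →
      Integrable (fun p => Δ p * (1 / (ζ p + s) ^ 6)) μ ∧
        ∫ p, Δ p * (1 / (ζ p + s) ^ 6) ∂μ ≤ C * Θ * s ^ 4 / s ^ 6 := by
  obtain ⟨C, hC, h⟩ := dy_tail (X := X) 6 4 (by norm_num)
  refine ⟨C, hC, fun μ Δ ζ hm hi h0 hζ hζ0 Θ s hs hΘ => ⟨?_, ?_⟩⟩
  · refine hi.mul_bdd (c := 1 / s ^ 6)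
      (measurable_const.div ((hζ.add_const s).pow_const 6)).aestronglyMeasurable
      (ae_of_all _ fun p => ?_)
    have := hζ0 p
    rw [Real.norm_of_nonneg (by positivity)]
    gcongr
    exact le_add_of_nonneg_left this
  have := isFiniteMeasure_withDensity_ofReal hi.2
  have hw : ∀ g : X → ℝ, ∫ p, g p ∂(μ.withDensity fun p => ENNReal.ofReal (Δ p)) =
      ∫ p, Δ p * g p ∂μ := fun g => by
    rw [integral_withDensity_eq_integral_toReal_smul hm.ennreal_ofReal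
      (ae_of_all _ fun p => ENNReal.ofReal_lt_top)]
    refine integral_congr_ae (h0.mono fun p hp => ?_)
    simp only [ENNReal.toReal_ofReal hp, smul_eq_mul]
  rw [← hw]
  refine h _ ζ hζ hζ0 Θ s hs fun r hr => le_of_eq_of_le ?_ (hΘ r (hs.trans_le hr))
  have hS : MeasurableSet {p | ζ p ≤ r} := measurableSet_le hζ measurable_const
  rw [← integral_indicator_one hS, hw, ← integral_indicator hS]
  refine integral_congr_ae (ae_of_all _ fun p => ?_)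
  by_cases hp : p ∈ {p | ζ p ≤ r}
  · simp only [indicator_of_mem hp, Pi.one_apply, mul_one]
  · simp only [indicator_of_notMem hp, mul_zero]

theorem Loc.Hyp.dbl (H : D.Hyp a) : ∃ K, ∀ s > 0,
    Integrable (fun x : E × E => ∫ y, D.fI s x.1 x.2 y ∂D.μ) D.μ2 ∧
      ∫ x, (∫ y, D.fI s x.1 x.2 y ∂D.μ) ∂D.μ2 ≤ K := by
  obtain ⟨C, hC, h⟩ := wd_Dbl (X := (E × E) × E × E)
  obtain ⟨C₀, r₀, hr₀, hI⟩ := H.hI
  obtain ⟨κ, hκ, hQ⟩ := D.Q_lower
  obtain ⟨Δ, hΔ⟩ : ∃ Δ : (E × E) × E × E → ℝ,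
      Δ = fun p => Del (D.g p.1.1) (D.J p.1.1) p.1.2 p.2.2 := ⟨_, rfl⟩
  have hm : Measurable Δ := hΔ ▸ D.Del_cont.measurable
  have ha : ∀ᵐ p ∂(D.μ2.prod D.μ), p.1.1 ∈ closedBall (0 : E) 3 ∧ ‖p.1.2‖ ≤ D.C ∧ ‖p.2.2‖ ≤ D.C := by
    filter_upwards [Measure.quasiMeasurePreserving_fst.ae D.ae_μ2,
      Measure.quasiMeasurePreserving_snd.ae D.supp] with p h1 h2
    exact ⟨closedBall_subset_closedBall (by norm_num) h1.1, h1.2.2, h2.2.2⟩
  have h0 : ∀ᵐ p ∂(D.μ2.prod D.μ), 0 ≤ Δ p := ha.mono fun p hp => by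
    rw [hΔ]; exact (D.herm _ hp.1).Del_nonneg _ _
  have hi : Integrable Δ (D.μ2.prod D.μ) := by
    refine (integrable_const (D.C ^ 2 * D.C ^ 2 * D.C ^ 2)).mono' hm.aestronglyMeasurable ?_
    filter_upwards [ha, h0] with p hp hp0
    rw [Real.norm_of_nonneg hp0, hΔ]
    refine ((D.herm _ hp.1).Del_le _ _).trans ?_
    have := hp.2.1
    have := hp.2.2
    gcongr
  have hζ : Measurable fun p : (E × E) × E × E => ‖p.2.1 - p.1.1‖ :=
    (continuous_snd.fst.sub continuous_fst.fst).norm.measurable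
  have hm0 : 0 ≤ ∫ p, Δ p ∂(D.μ2.prod D.μ) := integral_nonneg_of_ae h0
  have hΘ : ∀ r > 0, ∫ p in {p : (E × E) × E × E | ‖p.2.1 - p.1.1‖ ≤ r}, Δ p ∂(D.μ2.prod D.μ) ≤
      (|C₀| + (∫ p, Δ p ∂(D.μ2.prod D.μ)) / r₀ ^ 4) * r ^ 4 := fun r hr => by
    have hS : MeasurableSet {p : (E × E) × E × E | ‖p.2.1 - p.1.1‖ ≤ r} :=
      measurableSet_le hζ measurable_const
    rcases le_total r r₀ with h1 | h1
    · rw [← integral_indicator hS, integral_prod _ (hi.indicator hS)]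
      refine le_of_eq_of_le (integral_congr_ae (ae_of_all _ fun x => ?_))
        ((hI r ⟨hr, h1⟩).trans (mul_le_mul_of_nonneg_right ((le_abs_self _).trans
          (le_add_of_nonneg_right (by positivity))) (by positivity)))
      simp only
      rw [← integral_indicator (measurable_fst measurableSet_closedBall)]
      refine integral_congr_ae (ae_of_all _ fun y => ?_)
      simp only [indicator, mem_ofPred_eq, mem_preimage, mem_closedBall, dist_eq_norm, hΔ]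
    · refine (setIntegral_le_integral hi h0).trans ?_
      have h2 : (∫ p, Δ p ∂(D.μ2.prod D.μ)) / r₀ ^ 4 * r₀ ^ 4 ≤
          (|C₀| + (∫ p, Δ p ∂(D.μ2.prod D.μ)) / r₀ ^ 4) * r ^ 4 := by
        gcongr
        exact le_add_of_nonneg_left (abs_nonneg _)
      rwa [div_mul_cancel₀ _ (by positivity)] at h2
  refine ⟨κ⁻¹ ^ 3 * (C * (|C₀| + (∫ p, Δ p ∂(D.μ2.prod D.μ)) / r₀ ^ 4)), fun s hs => ?_⟩
  obtain ⟨i1, i2⟩ := h _ Δ _ hm hi h0 hζ (fun p => norm_nonneg _) _ s hs hΘ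
  have hb : ∀ᵐ p ∂(D.μ2.prod D.μ), ‖D.fI s p.1.1 p.1.2 p.2‖ ≤
      κ⁻¹ ^ 3 * s ^ 2 * (Δ p * (1 / (‖p.2.1 - p.1.1‖ + s) ^ 6)) := by
    filter_upwards [ha, h0] with p hp hp0
    rw [Real.norm_of_nonneg (D.fI_nonneg hp.1 _ _ _), Loc.fI, (D.herm _ hp.1).Del_symm]
    have e : κ⁻¹ ^ 3 * s ^ 2 * (Δ p * (1 / (‖p.2.1 - p.1.1‖ + s) ^ 6)) =
        1 * (s ^ 2 * Δ p) / (κ * (‖p.2.1 - p.1.1‖ + s) ^ 2) ^ 3 := by
      field_simp
    have h1 := hQ _ hp.1 s hs.le p.2.1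
    have h2 := cf_spec.2.2.1 p.2.1
    rw [e]
    simp only [hΔ] at hp0 ⊢
    gcongr
  have i3 : Integrable (fun p : (E × E) × E × E => D.fI s p.1.1 p.1.2 p.2) (D.μ2.prod D.μ) :=
    (i1.const_mul _).mono' (D.fI_meas s).aestronglyMeasurable hb
  refine ⟨i3.integral_prod_left, ?_⟩
  rw [← integral_prod _ i3]
  refine (le_abs_self _).trans ((norm_integral_le_of_norm_le (i1.const_mul _) hb).trans ?_)
  rw [integral_const_mul]
  refine (mul_le_mul_of_nonneg_left i2 (by positivity)).trans (le_of_eq ?_)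
  field_simp

theorem eI_le_Dbl (D : Loc) {x : E} (hx : x ∈ closedBall (0 : E) 3) {s : ℝ} (hs : 0 < s)
    (y : E × E) : D.eI s x y ≤ D.ppI 0 x y := by
  refine le_trans ?_ (D.ppI_le hx s y)
  have H := D.herm x hx
  have h1 : 0 < D.Q x s y.1 := H.Qf_pos x y.1 hs
  have h2 : s ^ 2 ≤ D.Q x s y.1 := H.Qf_sq x y.1 s
  have h3 := mul_nonneg (cf_spec.2.1 y.1) (H.Del_nonneg y.2 (y.1 - x))
  rw [Loc.eI, Loc.ppI, div_le_div_iff₀ (pow_pos h1 3) (pow_pos h1 2)]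
  have := mul_le_mul_of_nonneg_left h2 (mul_nonneg h3 (pow_pos h1 2).le)
  linarith only [this]

theorem eI_lim_Dbl (D : Loc) {x : E} (hx : x ∈ closedBall (0 : E) 3) (y : E × E) :
    Tendsto (fun n => D.eI (sn n) x y) atTop (𝓝 0) := by
  by_cases h : y.1 = x
  · simp [Loc.eI, h, Del]
  have h1 : 0 < Qf (D.g x) x 0 y.1 := (D.herm x hx).Qf_pos' h 0
  have h2 := (((sn_lim.pow 2).mul_const (Del (D.g x) (D.J x) y.2 (y.1 - x))).const_mul
    (cf y.1)).div (((sn_lim.pow 2).const_add (D.g x (y.1 - x) (y.1 - x))).pow 3) (pow_pos h1 3).ne'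
  simp only [ne_eq, OfNat.ofNat_ne_zero, not_false_eq_true, zero_pow, zero_mul, mul_zero,
    zero_div] at h2
  exact h2

theorem Loc.Hyp.es (H : D.Hyp a) :
    (∀ n, Integrable (fun x : E × E => ∫ y, D.eI (sn n) x.1 y ∂D.μ) D.μ2) ∧
      Tendsto (fun n => ∫ x, (∫ y, D.eI (sn n) x.1 y ∂D.μ) ∂D.μ2) atTop (𝓝 0) := by
  obtain ⟨K, hK⟩ := H.ppM
  have h3 : closedBall (0 : E) 2 ⊆ closedBall 0 3 := closedBall_subset_closedBall (by norm_num)
  have hm : ∀ n, AEStronglyMeasurable (fun x : E × E => ∫ y, D.eI (sn n) x.1 y ∂D.μ) D.μ2 :=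
    fun n => ((D.eI_meas (sn n)).stronglyMeasurable.integral_prod_right').aestronglyMeasurable
  have hn : ∀ n, ∀ x ∈ closedBall (0 : E) 2, ∀ᵐ y ∂D.μ, ‖D.eI (sn n) x y‖ ≤ D.ppI 0 x y :=
    fun n x hx => ae_of_all _ fun y => by
      rw [Real.norm_of_nonneg (D.eI_nonneg (h3 hx) _ _)]
      exact eI_le_Dbl D (h3 hx) (sn_pos n) y
  have hb : ∀ n, ∀ᵐ x ∂D.μ2, ‖∫ y, D.eI (sn n) x.1 y ∂D.μ‖ ≤ K := fun n =>
    D.ae_μ2.mono fun x hx =>
      (norm_integral_le_of_norm_le (hK _ hx.1).1 (hn n _ hx.1)).trans (hK _ hx.1).2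
  refine ⟨fun n => (integrable_const K).mono' (hm n) (hb n), ?_⟩
  have := tendsto_integral_of_dominated_convergence (f := fun _ => (0 : ℝ)) _ hm
    (integrable_const K) hb (D.ae_μ2.mono fun x hx => by
      have := tendsto_integral_of_dominated_convergence (f := fun _ => (0 : ℝ)) _
        (fun n => (D.eI_cont (h3 hx.1) (sn_pos n)).aestronglyMeasurable) (hK _ hx.1).1
        (fun n => hn n _ hx.1) (ae_of_all _ fun y => eI_lim_Dbl D (h3 hx.1) y)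
      rwa [integral_zero] at this)
  rwa [integral_zero] at this

end

end Vale.Agent.P204
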