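import Vale.Agent.P204.Defs2
import Vale.Agent.P204.Alg2
import Vale.Agent.P204.Jet3
import Vale.Agent.P204.Ms1
import Vale.Agent.P204.Ms2
import Vale.Agent.P204.Cal

/-!
P204 L/Defs: definitions for the local analysis (notes/P204.md section L).
Notation: `x` centre, `y = (point, vector w)`, `z = y.1 - x`, `Q = g x z z + s ^ 2`.
-/

namespace Vale.Agent.P204

open scoped ContDiff Topology
open Metric MeasureTheory Set Filter

noncomputable section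

/-- the cut-off -/
def cf : E → ℝ := (exists_cutoff (r := 9 / 4) (r' := 5 / 2) (by norm_num) (by norm_num)).choose

theorem cf_spec : Supp (5 / 2) cf ∧ (∀ p, 0 ≤ cf p) ∧ (∀ p, cf p ≤ 1) ∧
    ∀ p ∈ closedBall (0 : E) (9 / 4), cf p = 1 :=
  (exists_cutoff (r := 9 / 4) (r' := 5 / 2) (by norm_num) (by norm_num)).choose_spec

/-- the scales -/
def sn (n : ℕ) : ℝ := 1 / ((n : ℝ) + 1)

theorem sn_pos (n : ℕ) : 0 < sn n := Nat.one_div_pos_of_nat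

theorem sn_mem (n : ℕ) : sn n ∈ Ioc (0 : ℝ) 1 :=
  ⟨sn_pos n, div_le_one_of_le₀ (le_add_of_nonneg_left n.cast_nonneg) (by positivity)⟩

theorem sn_lim : Tendsto sn atTop (𝓝 0) := tendsto_one_div_add_atTop_nhds_zero_nat

def Qf (B : Bil) (x : E) (s : ℝ) (y : E) : ℝ := B (y - x) (y - x) + s ^ 2

def th (B : Bil) (x : E) (s : ℝ) (y : E) : Cov := (Qf B x s y)⁻¹ • B (y - x)

def ks (s : ℝ) (z : E) : ℝ := s ^ 2 / (‖z‖ + s) ^ 5

namespace Loc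

variable (D : Loc)

def Q (x : E) (s : ℝ) (y : E) : ℝ := Qf (D.g x) x s y

def gam (x : E) (s : ℝ) (y : E) : Cov := -(cf y) • (th (D.g x) x s y).comp (D.J y)

def lamI (s : ℝ) (x : E) (y : E × E) : ℝ := cf y.1 * (D.g x y.2 y.2 * s ^ 2) / D.Q x s y.1 ^ 2

def ppI (s : ℝ) (x : E) (y : E × E) : ℝ :=
  cf y.1 * Del (D.g x) (D.J x) y.2 (y.1 - x) / D.Q x s y.1 ^ 2

def eI (s : ℝ) (x : E) (y : E × E) : ℝ :=
  cf y.1 * (s ^ 2 * Del (D.g x) (D.J x) y.2 (y.1 - x)) / D.Q x s y.1 ^ 3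

def fI (s : ℝ) (x v : E) (y : E × E) : ℝ :=
  cf y.1 * (s ^ 2 * Del (D.g x) (D.J x) y.2 v) / D.Q x s y.1 ^ 3

/-- the derivative of `lamI` in the centre, in the direction `v` -/
def dlamI (s : ℝ) (x v : E) (y : E × E) : ℝ :=
  cf y.1 * (fderiv ℝ D.g x v y.2 y.2 * s ^ 2) / D.Q x s y.1 ^ 2 -
    2 * (cf y.1 * (D.g x y.2 y.2 * s ^ 2)) *
      (fderiv ℝ D.g x v (y.1 - x) (y.1 - x) - 2 * D.g x (y.1 - x) v) / D.Q x s y.1 ^ 3

def Lam (s : ℝ) (x : E) : ℝ := ∫ y, D.lamI s x y ∂D.μ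

def Pp (s : ℝ) (x : E) : ℝ := ∫ y, D.ppI s x y ∂D.μ

/-- the second family of test forms -/
def tst (x : E) (s : ℝ) (v : E) (y : E) : Cov :=
  (cf y * (s ^ 2 / D.Q x s y ^ 2)) • D.g x (D.J x v)

/-- the part of the measure over the closed ball of radius 2 -/
def μ2 : Measure (E × E) := D.μ.restrict (Prod.fst ⁻¹' closedBall (0 : E) 2)

instance : IsFiniteMeasure D.μ2 := inferInstanceAs (IsFiniteMeasure (D.μ.restrict _))

/-- the hypotheses of `closedD` -/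
structure Hyp (a : E → Bil →L[ℝ] ℝ) : Prop where
  ha : MemLp a 2 volume
  anti : ∀ y ∈ closedBall (0 : E) 3, ∀ b, a y (pm (D.J y) b) = a y b
  cl : ∀ γ : E → Cov, Supp (5 / 2) γ → ∫ y, D.lin (d1 γ) y ∂D.μ + ∫ y, a y (d1 γ y) = 0
  gr : ∃ Θ ≥ 0, ∀ x ∈ closedBall (0 : E) 2, ∀ s > 0, bm D.μ x s ≤ Θ * s ^ 2
  hI : ∃ C, ∃ r₀ > 0, ∀ r ∈ Ioc (0 : ℝ) r₀, ∫ x,
    (∫ y in Prod.fst ⁻¹' closedBall x.1 r, Del (D.g x.1) (D.J x.1) x.2 y.2 ∂D.μ) ∂D.μ2 ≤ C * r ^ 4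

end Loc

end

end Vale.Agent.P204
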