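import Vale.Agent.P204.L.Nf
import Vale.Agent.P204.L.Bas

/-!
P204 L/Err: the test form `gam` on complex lines.
Plan: with `B = g x`, `h u = B u u / Q - 2 (B z u) ^ 2 / Q ^ 2` (`Herm.fderiv_th`) and `N` of
`exists_N`: `lin (d1 gam) y = cf (h (J y w) + h w) + N y th w (J y w)` (if `cf y.1 ≠ 0` then
`J y (J y w) = - w`), and `h w + h (J x w) = 2 (B w w s² + Del) / Q²` (`inv`, `symm`, `field_simp`).
Take `Er = cf (h (J y w) - h (J x w)) + N y th w (J y w)`. Bounds: `|h u - h u'| ≤ K ‖u - u'‖ / Q`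
for bounded `u, u'` (`‖z‖² ≤ Q / κ`), `J_lip`, `Q_lower`, `norm_th`, `jb_supp`/compact support for
`‖N‖`; off `closedBall 0 (5/2)` everything is zero. `gam_int`: `int_cont`, `Supp.d1`,
`norm_integral_le_of_norm_le`, `kernel_integrable`, `D.supp`.
-/

namespace Vale.Agent.P204

open scoped ContDiff Topology
open Metric MeasureTheory Set Filter

noncomputable section

theorem real_Err {A B Q κ z l a b : ℝ} (hκ : 0 < κ) (hl : 0 < l) (h0 : 0 ≤ z) (hz : z ≤ l)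
    (hQ : κ * l ^ 2 ≤ Q) (hA : |A| ≤ a * z) (hB : |B| ≤ b * z ^ 3) (ha : 0 ≤ a) (hb : 0 ≤ b) :
    |A / Q - 2 * B / Q ^ 2| ≤ (a / κ + 2 * b / κ ^ 2) * (1 / l) := by
  have hQ0 : 0 < Q := lt_of_lt_of_le (by positivity) hQ
  have h1 : |A| / Q ≤ a * l / (κ * l ^ 2) :=
    div_le_div₀ (by positivity) (hA.trans (by gcongr)) (by positivity) hQ
  have h2 : 2 * |B| / Q ^ 2 ≤ 2 * (b * l ^ 3) / (κ * l ^ 2) ^ 2 :=
    div_le_div₀ (by positivity) (mul_le_mul_of_nonneg_left (hB.trans (by gcongr)) zero_le_two)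
      (by positivity) (by gcongr)
  refine (abs_sub _ _).trans ?_
  rw [abs_div, abs_div, abs_mul, abs_two, abs_of_pos hQ0, abs_of_pos (pow_pos hQ0 2)]
  refine (add_le_add h1 h2).trans_eq ?_
  field_simp

theorem bil_Err {B : Bil} {C : ℝ} (h : ‖B‖ ≤ C) {u v : E} {a b : ℝ} (hu : ‖u‖ ≤ a) (hv : ‖v‖ ≤ b) :
    |B u v| ≤ C * a * b := B.le_of_opNorm₂_le_of_le h hu hv

theorem Loc.gam_err (D : Loc) : ∃ K ≥ 0, ∃ Er : E → ℝ → E × E → ℝ, ∀ x ∈ closedBall (0 : E) 3,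
    (∀ s > 0, ∀ y, D.lin (d1 (D.gam x s)) y = 2 * D.lamI s x y + 2 * D.ppI s x y + Er x s y) ∧
    (∀ s > 0, ∀ y : E × E, ‖y.2‖ ≤ D.C → |Er x s y| ≤ K * (1 / (‖y.1 - x‖ + s))) ∧
    ∀ y : E × E, y.1 ≠ x → ContinuousAt (fun s => Er x s y) 0 := by
  obtain ⟨N, hN, hd⟩ := D.exists_N
  obtain ⟨M, hM⟩ := hN.1.continuous.bounded_above_of_compact_support hN.hasCompactSupport
  obtain ⟨L, hL0, hL⟩ := D.J_lip
  obtain ⟨κ, hκ, hQ⟩ := D.Q_lower
  have H0 := D.herm 0 (by simp)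
  have hC := H0.C_nonneg
  have hM0 := (norm_nonneg _).trans (hM 0)
  have hm := lt_min H0.cpos one_pos
  have hb : ∀ {p : E}, ‖p‖ ≤ 5 / 2 → p ∈ closedBall (0 : E) 3 := fun h =>
    mem_closedBall_zero_iff.2 (h.trans (by norm_num))
  refine ⟨2 * D.C ^ 4 * L / κ + 2 * (2 * D.C ^ 5 * L) / κ ^ 2 +
    M * (2 * D.C / min D.c 1) * D.C * (D.C * D.C), by positivity, fun x s y =>
      cf y.1 * ((D.g x (D.J y.1 y.2) (D.J y.1 y.2) - D.g x (D.J x y.2) (D.J x y.2)) / D.Q x s y.1 -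
        2 * (D.g x (y.1 - x) (D.J y.1 y.2) ^ 2 - D.g x (y.1 - x) (D.J x y.2) ^ 2) /
          D.Q x s y.1 ^ 2) + N y.1 (th (D.g x) x s y.1) y.2 (D.J y.1 y.2),
    fun x hx => ⟨fun s hs y => ?_, fun s hs y hy => ?_, fun y hy => ?_⟩⟩
  · have H := D.herm x hx
    refine (hd _ y.1 ((H.contDiff_th x hs).differentiable (by simp) _) _ _).trans ?_
    have h0 := (H.Qf_pos x y.1 hs).ne'
    rw [H.fderiv_th x _ hs, H.fderiv_th x _ hs]
    simp only [Loc.lamI, Loc.ppI, Loc.Q, Del]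
    by_cases h : cf y.1 = 0
    · simp [h]
    rw [(D.herm _ (hb (cf_ne h))).sq, map_neg, map_neg, H.inv, H.symm y.2 (y.1 - x),
      H.symm (D.J x y.2) (y.1 - x), show s ^ 2 = Qf (D.g x) x s y.1 - D.g x (y.1 - x) (y.1 - x) from
        (add_sub_cancel_left _ _).symm]
    field_simp
    ring
  · have H := D.herm x hx
    beta_reduce
    by_cases h : ‖y.1‖ ≤ 5 / 2
    swap
    · rw [hN.2 _ (mt mem_closedBall_zero_iff.1 h), by_contra fun h' => h (cf_ne h')]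
      simp only [zero_mul, zero_apply, add_zero, abs_zero]
      positivity
    have u1 : ‖D.J y.1 y.2‖ ≤ D.C * D.C :=
      (D.J y.1).le_of_opNorm_le_of_le (D.herm _ (hb h)).Jle hy
    have u2 : ‖D.J x y.2‖ ≤ D.C * D.C := (D.J x).le_of_opNorm_le_of_le H.Jle hy
    have u3 : ‖D.J y.1 y.2 - D.J x y.2‖ ≤ L * ‖y.1 - x‖ * D.C :=
      (D.J y.1 - D.J x).le_of_opNorm_le_of_le (hL x hx _ (hb h)) hy
    have u4 : ‖N y.1 (th (D.g x) x s y.1)‖ ≤ M * (2 * D.C / min D.c 1 / (‖y.1 - x‖ + s)) :=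
      (N y.1).le_of_opNorm_le_of_le (hM _) (H.norm_th x _ hs)
    generalize D.J y.1 y.2 = u, D.J x y.2 = u' at *
    have a1 := abs_le.1 (bil_Err H.gle u3 u1)
    have a2 := abs_le.1 (bil_Err H.gle u2 u3)
    have a3 := mul_le_mul (bil_Err H.gle (le_refl ‖y.1 - x‖) u3) (bil_Err H.gle (le_refl ‖y.1 - x‖)
      ((norm_add_le u u').trans (add_le_add u1 u2))) (abs_nonneg _) (by positivity)
    simp only [map_sub (D.g x) u, map_sub (D.g x _), map_add, sub_apply, ← abs_mul] at a1 a2 a3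
    rw [add_mul]
    refine (abs_add_le _ _).trans (add_le_add ?_ ((bil_Err u4 hy u1).trans_eq (by ring)))
    rw [abs_mul, abs_of_nonneg (cf_spec.2.1 _)]
    refine (mul_le_of_le_one_left (abs_nonneg _) (cf_spec.2.2.1 _)).trans
      (real_Err hκ (by positivity) (norm_nonneg _) (le_add_of_nonneg_right hs.le) (hQ x hx s hs.le _)
        (abs_le.2 ⟨by linarith, by linarith⟩) ?_ (by positivity) (by positivity))
    rw [sq_sub_sq, mul_comm]
    exact a3.trans_eq (by ring)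
  · have H := D.herm x hx
    have h1 : ContinuousAt (fun s => D.Q x s y.1) 0 := by
      unfold Loc.Q Qf
      fun_prop
    have h2 := (H.Qf_pos' hy 0).ne'
    exact (continuousAt_const.mul ((continuousAt_const.div h1 h2).sub
      (continuousAt_const.div (h1.pow 2) (pow_ne_zero 2 h2)))).add
      ((((N y.1).continuous.continuousAt.comp (H.th_contAt hy)).clm_apply
        continuousAt_const).clm_apply continuousAt_const)

theorem Loc.gam_int (D : Loc) : ∃ K ≥ 0, ∀ x ∈ closedBall (0 : E) 3, ∀ s > 0,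
    2 * D.Lam s x + 2 * D.Pp s x ≤
      ∫ y, D.lin (d1 (D.gam x s)) y ∂D.μ + K * ∫ y, 1 / (‖y.1 - x‖ + s) ∂D.μ := by
  obtain ⟨K, hK, Er, h⟩ := D.gam_err
  refine ⟨K, hK, fun x hx s hs => ?_⟩
  have i1 := (D.int_cont (D.lamI_cont hx hs)).const_mul 2
  have i2 := (D.int_cont (D.ppI_cont hx hs)).const_mul 2
  have i3 := D.int_cont (D.lin_cont (D.gam_supp hx hs).d1.1.1.continuous)
  have i4 := (kernel_integrable D.μ (fun y => ‖y.1 - x‖) (by fun_prop) (fun _ => norm_nonneg _)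
    hs 1).const_mul K
  simp only [pow_one] at i4
  rw [Loc.Lam, Loc.Pp, ← integral_const_mul, ← integral_const_mul, ← integral_const_mul,
    ← integral_add i1 i2, ← integral_add i3 i4]
  refine integral_mono_ae (i1.add i2) (i3.add i4) ?_
  filter_upwards [D.supp] with y hy
  linarith [(h x hx).1 s hs y, (abs_le.1 ((h x hx).2.1 s hs y hy.2.2)).1]

end

end Vale.Agent.P204
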