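import Vale.Agent.P204.L.Grow

/-!
P204 L/Zs: the set of positive density.
Plan: `Zs_meas`: `p ↦ bm μ p r` is measurable (`measurable_measure_prodMk_left` for the closed set
`{(p, y) | dist y.1 p ≤ r}`, `ENNReal.toReal`), `measurableSet_tendsto`. `Zs_iff`: for
`1 / (n + 2) < s ≤ 1 / (n + 1)` (`n + 1 = ⌊1 / s⌋₊`), monotonicity gives
`bm s / s² ≤ 4 bm (1 / (n + 1)) (n + 1)²`. `lam_zero`: `lamI ≤ K s² / (‖z‖ + s) ^ 4` (`Q_lower`);
given `ε` take `δ` with `bm r ≤ ε r²` for `0 < r ≤ δ`; the measure restricted to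
`Prod.fst ⁻¹' closedBall x δ` has growth `ε r²` for all `r > 0`, `dy_tail 4 2`; outside the kernel
is `≤ s² / δ ^ 4` (`integral_add_compl`). `not_Zs`: `lam_lower`, squeeze.
-/

namespace Vale.Agent.P204

open scoped ContDiff Topology
open Metric MeasureTheory Set Filter

noncomputable section

theorem Zs_meas (μ : Measure (E × E)) [IsFiniteMeasure μ] : MeasurableSet (Zs μ) := by
  have h : ∀ r, Measurable fun p => bm μ p r := fun r =>
    (measurable_measure_prodMk_left (ν := μ) (s := {q : E × E × E | dist q.2.1 q.1 ≤ r})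
      (isClosed_le (by fun_prop) continuous_const).measurableSet).ennreal_toReal
  exact (measurableSet_tendsto (𝓝 0) fun n => (h _).mul_const _).compl

theorem Zs_iff (μ : Measure (E × E)) [IsFiniteMeasure μ] (p : E) :
    p ∉ Zs μ ↔ Tendsto (fun s : ℝ => bm μ p s / s ^ 2) (𝓝[>] 0) (𝓝 0) := by
  rw [Zs, mem_ofPred_eq, not_not]
  refine ⟨fun h => ?_, fun h => (h.comp (tendsto_nhdsWithin_iff.2
    ⟨sn_lim, .of_forall sn_pos⟩)).congr fun n => by simp [sn]⟩
  have h1 := (h.comp ((tendsto_sub_atTop_nat 1).comp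
    (tendsto_nat_floor_atTop.comp (tendsto_inv_nhdsGT_zero (𝕜 := ℝ))))).const_mul 4
  rw [mul_zero] at h1
  refine squeeze_zero' (.of_forall fun s => div_nonneg measureReal_nonneg (sq_nonneg s)) ?_ h1
  filter_upwards [Ioc_mem_nhdsGT one_pos] with s hs
  have h2 : 1 ≤ ⌊s⁻¹⌋₊ := Nat.le_floor (by simpa using (one_le_inv₀ hs.1).2 hs.2)
  have h3 := Nat.floor_le (inv_pos.2 hs.1).le
  have h4 := Nat.lt_floor_add_one s⁻¹
  have h5 : (1 : ℝ) ≤ ⌊s⁻¹⌋₊ := by exact_mod_cast h2
  simp only [Function.comp_apply, Nat.cast_sub h2, Nat.cast_one, sub_add_cancel]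
  rw [div_eq_mul_inv, ← inv_pow, mul_left_comm]
  refine mul_le_mul (measureReal_mono (preimage_mono (closedBall_subset_closedBall ?_))) ?_
    (sq_nonneg _) measureReal_nonneg
  · rw [one_div]
    exact (le_inv_comm₀ hs.1 (by linarith)).2 h3
  · nlinarith [inv_pos.2 hs.1]

theorem Loc.lam_zero (D : Loc) {x : E} (hx : x ∈ closedBall (0 : E) 2) (hZ : x ∉ Zs D.μ) :
    Tendsto (fun n => D.Lam (sn n) x) atTop (𝓝 0) := by
  have hx3 := closedBall_subset_closedBall (by norm_num : (2 : ℝ) ≤ 3) hx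
  obtain ⟨κ, hκ, hQ⟩ := D.Q_lower
  obtain ⟨C, hC, hT⟩ := dy_tail (X := E × E) 4 2 (by norm_num)
  have H := D.herm x hx3
  have h0 := H.C_nonneg
  have hm : Measurable fun y : E × E => ‖y.1 - x‖ := by fun_prop
  refine tendsto_order.2 ⟨fun a ha => .of_forall fun n => ha.trans_le (D.Lam_nonneg hx3 _),
    fun b hb => ?_⟩
  have hK : 0 < 2 * (D.C ^ 3 / κ ^ 2 * C + 1) := by positivity
  obtain ⟨δ, hδ, h1⟩ := mem_nhdsGT_iff_exists_Ioc_subset.1
    (((Zs_iff _ _).1 hZ).eventually_lt_const (div_pos hb hK))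
  have e := mul_div_cancel₀ b hK.ne'
  have e0 := div_pos hb hK
  generalize b / (2 * (D.C ^ 3 / κ ^ 2 * C + 1)) = ε at *
  have hA : MeasurableSet (Prod.fst ⁻¹' closedBall x δ : Set (E × E)) :=
    measurable_fst measurableSet_closedBall
  have h2 := (sn_lim.pow 2).const_mul (D.C ^ 3 / κ ^ 2 * (1 / δ ^ 4 * D.μ.real univ))
  rw [zero_pow two_ne_zero, mul_zero] at h2
  filter_upwards [h2.eventually_lt_const (half_pos hb)] with n hn
  have hs := sn_pos n
  generalize sn n = s at *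
  have i1 := kernel_integrable D.μ _ hm (fun _ => norm_nonneg _) hs 4
  have h3 := hT (D.μ.restrict (Prod.fst ⁻¹' closedBall x δ)) _ hm (fun _ => norm_nonneg _) ε s hs
    fun r hr => by
      have h4 : 0 < min r δ := lt_min (hs.trans_le hr) hδ
      rw [bm_eq, bm, measureReal_restrict_apply' hA]
      refine (measureReal_mono (s₂ := Prod.fst ⁻¹' closedBall x (min r δ))
        fun y hy => mem_closedBall.2 (le_min hy.1 hy.2)).trans
        (((div_lt_iff₀ (pow_pos h4 2)).1 (h1 ⟨h4, min_le_right _ _⟩)).le.trans ?_)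
      gcongr
      exact min_le_left _ _
  have h4 : ∫ y in (Prod.fst ⁻¹' closedBall x δ)ᶜ, 1 / (‖y.1 - x‖ + s) ^ 4 ∂D.μ ≤
      1 / δ ^ 4 * D.μ.real univ := by
    refine (Real.le_norm_self _).trans ((norm_setIntegral_le_of_norm_le_const (measure_lt_top _ _)
      fun y hy => ?_).trans (mul_le_mul_of_nonneg_left (measureReal_mono (μ := D.μ) (subset_univ _))
        (one_div_pos.2 (pow_pos hδ 4)).le))
    have : δ < ‖y.1 - x‖ := not_le.1 (mt mem_closedBall_iff_norm.2 hy)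
    rw [Real.norm_of_nonneg (by positivity)]
    exact one_div_le_one_div_of_le (pow_pos hδ 4) (pow_le_pow_left₀ (le_of_lt hδ) (by linarith) 4)
  have h5 : D.Lam s x ≤ D.C ^ 3 / κ ^ 2 * s ^ 2 * ∫ y, 1 / (‖y.1 - x‖ + s) ^ 4 ∂D.μ := by
    rw [← integral_const_mul]
    refine integral_mono_ae (D.int_cont (D.lamI_cont hx3 hs)) (i1.const_mul _) ?_
    filter_upwards [D.supp] with y hy
    refine (div_le_div₀ (c := D.C ^ 3 * s ^ 2) (by positivity) ?_ (by positivity)
      (pow_le_pow_left₀ (by positivity) (hQ x hx3 s hs.le y.1) 2)).trans_eq (by field_simp)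
    refine (mul_le_of_le_one_left (mul_nonneg (H.nn_Alg2 _) (sq_nonneg s))
      (cf_spec.2.2.1 _)).trans (mul_le_mul_of_nonneg_right ((H.le_Alg2 _).trans ?_) (sq_nonneg s))
    rw [pow_succ' D.C 2]
    gcongr
    exact hy.2.2
  rw [← integral_add_compl hA i1] at h5
  refine (h5.trans (mul_le_mul_of_nonneg_left (add_le_add h3 h4) (by positivity))).trans_lt ?_
  rw [mul_add, show D.C ^ 3 / κ ^ 2 * s ^ 2 * (C * ε * s ^ 2 / s ^ 4) = D.C ^ 3 / κ ^ 2 * C * ε by
    field_simp]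
  linarith

theorem Loc.not_Zs (D : Loc) {x : E} (hx : x ∈ closedBall (0 : E) 2)
    (h : Tendsto (fun n => D.Lam (sn n) x) atTop (𝓝 0)) : x ∉ Zs D.μ := by
  obtain ⟨κ, hκ, h1⟩ := D.lam_lower
  refine not_not.2 (squeeze_zero' (.of_forall fun n => mul_nonneg measureReal_nonneg (sq_nonneg _))
    ?_ (by simpa only [zero_div] using h.div_const κ))
  filter_upwards [sn_lim.eventually_le_const (by norm_num : (0 : ℝ) < 1 / 4)] with n hn
  have h2 := h1 x hx _ (sn_pos n) hn
  rw [← div_le_iff₀ (pow_pos (sn_pos n) 2)] at h2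
  rw [le_div_iff₀' hκ, ← mul_assoc]
  exact h2.trans_eq' (by simp [sn])

end

end Vale.Agent.P204
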