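import Vale.Agent.P204.L.Test
import Vale.Agent.P204.L.Zs

/-!
P204 L/Fin: the part of the current over the set of positive density is closed.
Plan: `exists_G`: `G m t = log (1 + exp (m + 1) * t) / (m + 1)`; for `t > 0`,
`1 + log t / (m + 1) ≤ G m t ≤ 1 + t / (m + 1)`. `closed`: `choose!` the limit `ν x` of `conv`,
`0 ≤ ν ≤ K` (`bdd`); dominated convergence in `n` (bound `(1 + K) |lin (d1 γ)|`, `int_μ2`) and `test`
give `|∫ G m (ν x.1) * lin ∂μ2| ≤ K sn m`; dominated convergence in `m`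
(`aestronglyMeasurable_of_tendsto_ae`) with limit the indicator of `Prod.fst ⁻¹' Zs` times `lin`
(`lam_zero`, `not_Zs`, `tendsto_nhds_unique`); `lin (d1 γ)` vanishes off `closedBall 0 1`.
-/

namespace Vale.Agent.P204

open scoped ContDiff Topology
open Metric MeasureTheory Set Filter

noncomputable section

theorem exists_G : ∃ (G G' : ℕ → ℝ → ℝ) (L : ℕ → ℝ), (∀ m, Tr (G m) (G' m) (L m) (sn m)) ∧
    (∀ m, ∀ t ≥ 0, |G m t| ≤ 1 + t) ∧ ∀ t > 0, Tendsto (fun m => G m t) atTop (𝓝 1) := by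
  have hm : ∀ m : ℕ, (1 : ℝ) ≤ (m : ℝ) + 1 := fun m => le_add_of_nonneg_left m.cast_nonneg
  have he : ∀ m : ℕ, 1 ≤ Real.exp ((m : ℝ) + 1) := fun m =>
    Real.one_le_exp (zero_le_one.trans (hm m))
  have h0 : ∀ (m : ℕ) (t : ℝ), 0 ≤ t → 0 ≤ Real.log (1 + Real.exp (m + 1) * t) / (m + 1) :=
    fun m t ht => div_nonneg (Real.log_nonneg (le_add_of_nonneg_right (by positivity)))
      (by positivity)
  have h1 : ∀ (m : ℕ) (t : ℝ), 0 ≤ t →
      Real.log (1 + Real.exp (m + 1) * t) / (m + 1) ≤ 1 + t * sn m := fun m t ht => by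
    have e1 : Real.log (1 + Real.exp (m + 1) * t) ≤ Real.log (Real.exp (m + 1) * (1 + t)) :=
      Real.log_le_log (by positivity) (by nlinarith [he m])
    rw [Real.log_mul (Real.exp_pos _).ne' (by positivity), Real.log_exp] at e1
    have e2 := Real.log_le_sub_one_of_pos (show 0 < 1 + t by positivity)
    rw [div_le_iff₀ (by positivity), sn, add_mul, mul_assoc, one_div_mul_cancel (by positivity)]
    linarith
  refine ⟨fun m t => Real.log (1 + Real.exp (m + 1) * t) / (m + 1),
    fun m t => Real.exp (m + 1) / (1 + Real.exp (m + 1) * t) / (m + 1),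
    fun m => Real.exp (m + 1), fun m t ht => ?_, fun m t ht => ?_, fun t ht => ?_⟩
  · have p : 0 < 1 + Real.exp (m + 1) * t := by positivity
    have q : 0 ≤ Real.exp (m + 1) / (1 + Real.exp (m + 1) * t) / (m + 1) := by positivity
    refine ⟨?_, ?_, ?_, ?_, ?_⟩
    · exact ((contDiffAt_const.add (contDiffAt_const.mul contDiffAt_id)).log p.ne').div_const _
    · have d : HasDerivAt (fun u : ℝ => 1 + Real.exp (m + 1) * u) (Real.exp (m + 1)) t := by
        simpa using ((hasDerivAt_id t).const_mul (Real.exp (m + 1))).const_add 1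
      exact (d.log p.ne').div_const _
    · rw [abs_of_nonneg (h0 m t ht)]
      refine (div_le_self (Real.log_nonneg (le_add_of_nonneg_right (by positivity))) (hm m)).trans ?_
      linarith [Real.log_le_sub_one_of_pos p]
    · rw [abs_of_nonneg q]
      exact (div_le_self (by positivity) (hm m)).trans
        (div_le_self (Real.exp_pos _).le (le_add_of_nonneg_right (by positivity)))
    · rw [abs_of_nonneg q, div_mul_eq_mul_div, sn]
      refine div_le_div_of_nonneg_right ?_ (by positivity)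
      rw [div_mul_eq_mul_div]
      exact div_le_one_of_le₀ (le_add_of_nonneg_left zero_le_one) p.le
  · rw [abs_of_nonneg (h0 m t ht)]
    refine (h1 m t ht).trans ?_
    nlinarith [(sn_mem m).2]
  · have l1 : Tendsto (fun m => 1 + Real.log t * sn m) atTop (𝓝 1) := by
      simpa using (sn_lim.const_mul (Real.log t)).const_add 1
    have l2 : Tendsto (fun m => 1 + t * sn m) atTop (𝓝 1) := by
      simpa using (sn_lim.const_mul t).const_add 1
    refine tendsto_of_tendsto_of_tendsto_of_le_of_le l1 l2 (fun m => ?_) fun m => h1 m t ht.le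
    have e1 : Real.log (Real.exp (m + 1) * t) ≤ Real.log (1 + Real.exp (m + 1) * t) :=
      Real.log_le_log (by positivity) (le_add_of_nonneg_left zero_le_one)
    rw [Real.log_mul (Real.exp_pos _).ne' ht.ne', Real.log_exp] at e1
    beta_reduce
    rw [le_div_iff₀ (by positivity), sn, add_mul, mul_assoc, one_div_mul_cancel (by positivity)]
    linarith

theorem Loc.Hyp.closed {D : Loc} {a : E → Bil →L[ℝ] ℝ} (H : D.Hyp a) {γ : E → Cov}
    (hγ : Supp 1 γ) : ∫ y in Prod.fst ⁻¹' Zs D.μ, D.lin (d1 γ) y ∂D.μ = 0 := by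
  obtain ⟨G, G', L, hT, hG, hlim⟩ := exists_G
  obtain ⟨K, -, hK⟩ := H.bdd
  obtain ⟨K', hK'⟩ := H.test hγ
  choose! ν hν using fun x (hx : x ∈ closedBall (0 : E) 2) => H.conv hx
  have s23 : closedBall (0 : E) 2 ⊆ closedBall 0 3 := closedBall_subset_closedBall (by norm_num)
  have hf : Continuous (D.lin (d1 γ)) := D.lin_cont hγ.d1.1.1.continuous
  have hfi : Integrable (fun x => (1 + K) * ‖D.lin (d1 γ) x‖) D.μ2 :=
    (D.int_μ2 hf.continuousOn).norm.const_mul _
  have ν0 : ∀ x ∈ closedBall (0 : E) 2, 0 ≤ ν x := fun x hx =>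
    ge_of_tendsto' (hν x hx) fun n => D.Lam_nonneg (s23 hx) _
  have νK : ∀ x ∈ closedBall (0 : E) 2, ν x ≤ K := fun x hx =>
    le_of_tendsto' (hν x hx) fun n => (hK x hx _ (sn_pos n)).1
  have bd : ∀ m (t : ℝ) x, 0 ≤ t → t ≤ K → ‖G m t * D.lin (d1 γ) x‖ ≤ (1 + K) * ‖D.lin (d1 γ) x‖ :=
    fun m t x t0 tK => by
      rw [norm_mul]
      exact mul_le_mul_of_nonneg_right ((hG m t t0).trans (by linarith)) (norm_nonneg _)
  have ms : ∀ m n, AEStronglyMeasurable
      (fun x : E × E => G m (D.Lam (sn n) x.1) * D.lin (d1 γ) x) D.μ2 := fun m n => by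
    refine (D.int_μ2 (ContinuousOn.mul (fun x hx => ?_) hf.continuousOn)).1
    exact (hT m _ (D.Lam_nonneg (ball_subset_closedBall hx.1) _)).1.continuousAt.comp_continuousWithinAt
      (f := fun x : E × E => D.Lam (sn n) x.1)
      (((D.lam_smooth (sn_pos n)).continuousOn.comp continuousOn_fst fun y hy => hy.1) x hx)
  have l1 : ∀ m, ∀ᵐ x ∂D.μ2, Tendsto (fun n => G m (D.Lam (sn n) x.1) * D.lin (d1 γ) x) atTop
      (𝓝 (G m (ν x.1) * D.lin (d1 γ) x)) := fun m => by
    filter_upwards [D.ae_μ2] with x hx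
    exact (((hT m _ (ν0 _ hx.1)).1.continuousAt.tendsto).comp (hν _ hx.1)).mul_const _
  have e1 : ∀ m, |∫ x, G m (ν x.1) * D.lin (d1 γ) x ∂D.μ2| ≤ K' * sn m := fun m => by
    obtain ⟨ρ, hρ, h⟩ := hK' _ _ _ _ (hT m)
    have t1 := tendsto_integral_of_dominated_convergence _ (ms m) hfi (fun n => by
      filter_upwards [D.ae_μ2] with x hx
      exact bd m _ x (D.Lam_nonneg (s23 hx.1) _) (hK _ hx.1 _ (sn_pos n)).1) (l1 m)
    have := le_of_tendsto_of_tendsto' t1.abs (hρ.const_add (K' * sn m)) h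
    rwa [add_zero] at this
  have l2 : ∀ᵐ x ∂D.μ2, Tendsto (fun m => G m (ν x.1) * D.lin (d1 γ) x) atTop
      (𝓝 ((Prod.fst ⁻¹' Zs D.μ).indicator (D.lin (d1 γ)) x)) := by
    filter_upwards [D.ae_μ2] with x hx
    by_cases hZ : x.1 ∈ Zs D.μ
    · have p : 0 < ν x.1 := (ν0 _ hx.1).lt_of_ne fun h => D.not_Zs hx.1 (h ▸ hν _ hx.1) hZ
      rw [indicator_of_mem (show x ∈ Prod.fst ⁻¹' Zs D.μ from hZ)]
      simpa only [one_mul] using (hlim _ p).mul_const (D.lin (d1 γ) x)
    · have z : ν x.1 = 0 := tendsto_nhds_unique (hν _ hx.1) (D.lam_zero hx.1 hZ)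
      have z' : ∀ m, G m 0 = 0 := fun m =>
        abs_nonpos_iff.1 ((hT m 0 le_rfl).2.2.1.trans_eq (mul_zero _))
      rw [indicator_of_notMem (show x ∉ Prod.fst ⁻¹' Zs D.μ from hZ)]
      simp only [z, z', zero_mul]
      exact tendsto_const_nhds
  have t2 := tendsto_integral_of_dominated_convergence _
    (fun m => aestronglyMeasurable_of_tendsto_ae atTop (ms m) (l1 m)) hfi (fun m => by
      filter_upwards [D.ae_μ2] with x hx
      exact bd m _ x (ν0 _ hx.1) (νK _ hx.1)) l2
  have e2 := le_of_tendsto_of_tendsto' t2.abs (sn_lim.const_mul K') e1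
  rw [mul_zero, abs_nonpos_iff, Loc.μ2, setIntegral_eq_integral_of_forall_compl_eq_zero,
    integral_indicator (measurable_fst (Zs_meas D.μ))] at e2
  · exact e2
  · intro x hx
    refine indicator_apply_eq_zero.2 fun _ => ?_
    rw [Loc.lin, hγ.d1.1.2 x.1 fun h => hx (closedBall_subset_closedBall (by norm_num) h)]
    rfl

end

end Vale.Agent.P204
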