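import Vale.Agent.P204.L.Th

/-!
P204 L/ThJet: scale-invariant jet bounds for `th`.
Plan: `Φ ((B, σ), z) = th B 0 σ z` is smooth on the open set `U = {Qf B 0 σ z ≠ 0}` of
`(Bil × ℝ) × E`; the set `K` of `((B, σ), z)` with `‖B‖ ≤ C`, `∀ v, c ‖v‖² ≤ B v v`, `0 ≤ σ`,
`‖z‖ + σ = 1` is closed and bounded, so compact (`Metric.isCompact_of_isClosed_isBounded`, finite
dimension), and inside `U` when `0 < c` (if `c ≤ 0` no `Herm`, take `K = 0`); `jb_param`. With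
`λ = ‖y - x‖ + s`, `th B x s = fun q => λ⁻¹ • th B 0 (s / λ) (λ⁻¹ • (q - x))`; use
`iteratedFDeriv_const_smul_apply'`, `iteratedFDeriv_comp_sub`/`_comp_add_right`,
`ContinuousLinearMap.iteratedFDeriv_comp_right` (the inner function is globally smooth,
`Herm.contDiff_th`), `ContinuousMultilinearMap.norm_compContinuousLinearMap_le`.
-/

namespace Vale.Agent.P204

open scoped ContDiff Topology
open Metric MeasureTheory Set Filter

noncomputable section

theorem scale_ThJet {f : E → Cov} (hf : ContDiff ℝ ∞ f) {l M : ℝ} (hl : 0 < l) {k : ℕ} (x y : E)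
    (h : JB f k (l⁻¹ • (y - x)) M) : SJB (fun q => l⁻¹ • f (l⁻¹ • (q - x))) k l y (M / l) := by
  intro i hi
  have h1 : ContDiff ℝ ∞ fun q : E => f (l⁻¹ • (q - x)) :=
    hf.comp ((contDiff_id.sub contDiff_const).const_smul _)
  have h2 := (l⁻¹ • ContinuousLinearMap.id ℝ E).iteratedFDeriv_comp_right hf (y - x)
    (le_infty_Jet1 i)
  have h3 := iteratedFDeriv_comp_sub (𝕜 := ℝ)
    (f := f ∘ (l⁻¹ • ContinuousLinearMap.id ℝ E : E →L[ℝ] E)) i x y
  have h4 : iteratedFDeriv ℝ i (fun q : E => f (l⁻¹ • (q - x))) y = _ := h3.trans h2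
  have h5 : ‖l⁻¹ • ContinuousLinearMap.id ℝ E‖ ≤ l⁻¹ := by
    rw [norm_smul, Real.norm_of_nonneg (inv_nonneg.2 hl.le)]
    exact mul_le_of_le_one_right (inv_nonneg.2 hl.le) ContinuousLinearMap.norm_id_le
  have h6 : ‖iteratedFDeriv ℝ i (fun q : E => f (l⁻¹ • (q - x))) y‖ ≤ M * l⁻¹ ^ i := by
    rw [h4]
    refine (ContinuousMultilinearMap.norm_compContinuousLinearMap_le _ _).trans ?_
    rw [Finset.prod_const, Finset.card_univ, Fintype.card_fin]
    exact mul_le_mul (h i hi) (pow_le_pow_left₀ (norm_nonneg _) h5 i) (by positivity)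
      ((norm_nonneg _).trans (h i hi))
  rw [iteratedFDeriv_const_smul_apply' (h1.contDiffAt.of_le (le_infty_Jet1 i)), norm_smul,
    Real.norm_of_nonneg (inv_nonneg.2 hl.le)]
  calc l ^ i * (l⁻¹ * _) ≤ l ^ i * (l⁻¹ * (M * l⁻¹ ^ i)) := by gcongr
    _ = M / l := by rw [inv_pow]; field_simp

theorem homog_ThJet (B : Bil) (x : E) (s : ℝ) {l : ℝ} (hl : 0 < l) :
    th B x s = fun q => l⁻¹ • th B 0 (s / l) (l⁻¹ • (q - x)) := by
  funext q
  have e : Qf B 0 (s / l) (l⁻¹ • (q - x)) = l⁻¹ ^ 2 * Qf B x s q := by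
    simp only [Qf, sub_zero, map_smul, smul_apply, smul_eq_mul]
    ring
  simp only [th, e, sub_zero, map_smul, smul_smul]
  congr 1
  rw [mul_inv, inv_pow, inv_inv]
  field_simp

theorem Q_ThJet : ContDiff ℝ ∞ fun y : (Bil × ℝ) × E => Qf y.1.1 0 y.1.2 y.2 :=
  ((contDiff_fst.fst.clm_apply (contDiff_snd.sub contDiff_const)).clm_apply
    (contDiff_snd.sub contDiff_const)).add (contDiff_fst.snd.pow 2)

theorem unit_ThJet {κ : ℝ} (hκ : 0 < κ) (R : ℝ) (k : ℕ) : ∃ K ≥ 1, ∀ (B : Bil) (σ : ℝ) (z : E),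
    ‖B‖ ≤ R → ‖σ‖ ≤ R → ‖z‖ ≤ R → κ ≤ Qf B 0 σ z → JB (th B 0 σ) k z K := by
  have : ProperSpace ((Bil × ℝ) × E) := FiniteDimensional.proper ℝ _
  have hc := Q_ThJet.continuous
  obtain ⟨K, hK, h⟩ := jb_param (Φ := fun y : (Bil × ℝ) × E => th y.1.1 0 y.1.2 y.2)
    (U := {y | Qf y.1.1 0 y.1.2 y.2 ≠ 0})
    (K := closedBall 0 R ∩ {y | κ ≤ Qf y.1.1 0 y.1.2 y.2}) (isOpen_ne_fun hc continuous_const)
    ((Q_ThJet.contDiffOn.inv fun _ hy => hy).smul
      (contDiff_fst.fst.clm_apply (contDiff_snd.sub contDiff_const)).contDiffOn)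
    ((isCompact_closedBall _ _).inter_right (isClosed_le continuous_const hc))
    (fun y hy => (hκ.trans_le hy.2).ne') k
  refine ⟨K, hK, fun B σ z h1 h2 h3 h4 => h ((B, σ), z) ⟨?_, h4⟩⟩
  rw [mem_closedBall_zero_iff]
  exact max_le (max_le h1 h2) h3

theorem th_jet (c C : ℝ) (k : ℕ) : ∃ K ≥ 0, ∀ (B : Bil) (J : End), Herm B J c C →
    ∀ (x y : E) (s : ℝ), 0 < s →
      SJB (th B x s) k (‖y - x‖ + s) y (K / (‖y - x‖ + s)) := by
  by_cases hc : 0 < c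
  swap
  · exact ⟨0, le_rfl, fun B J h => absurd h.cpos hc⟩
  obtain ⟨K, hK, h⟩ := unit_ThJet (κ := min c 1 / 2) (half_pos (lt_min hc one_pos)) (max C 1) k
  refine ⟨K, zero_le_one.trans hK, fun B J hB x y s hs => ?_⟩
  have hl : 0 < ‖y - x‖ + s := by positivity
  have hσ : 0 < s / (‖y - x‖ + s) := by positivity
  have hz : ‖(‖y - x‖ + s)⁻¹ • (y - x)‖ + s / (‖y - x‖ + s) = 1 := by
    rw [norm_smul, Real.norm_of_nonneg (inv_nonneg.2 hl.le)]
    field_simp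
  have h0 := norm_nonneg ((‖y - x‖ + s)⁻¹ • (y - x))
  rw [homog_ThJet B x s hl]
  refine scale_ThJet (hB.contDiff_th 0 hσ) hl x y (h B _ _ (hB.gle.trans (le_max_left _ _))
    (le_max_of_le_right ?_) (le_max_of_le_right (by linarith)) ?_)
  · rw [Real.norm_of_nonneg hσ.le]
    linarith
  · have h1 := hB.Qf_lower 0 ((‖y - x‖ + s)⁻¹ • (y - x)) hσ.le
    rwa [sub_zero, hz, one_pow, mul_one] at h1

end

end Vale.Agent.P204
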