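import Vale.Agent.P204.L.Nf
import Vale.Agent.P204.L.ThJet

/-!
P204 L/Maj: majorant norm of the anti-invariant part of `d gam`.
Plan: `σ p = N p (th p)` (`exists_N2`, `funext`). `IsLoc`: `Supp.d1`, `Supp.clm_on` with
`contDiff_pm`, `IsAlt.pm`. Anti-invariance: `pm_pm` on `closedBall 0 3`, zero outside.
`t₀ = 1 / (|C₀| + 1)`. `jb_supp`, `JB_iff_SJB`, `SJB.scale`, `th_jet`, `SJB.clm_apply` give
`SJB σ k t q (K₁ / (‖q - x‖ + s))`. Majorant
`f = indicator (closedBall x 8) fun p => K₁ (|C₀| + 1) / (‖p - x‖ + t)`; for `q` within `C₀ t` of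
`p`: `‖p - x‖ + t ≤ (|C₀| + 1) (‖q - x‖ + s)`; if `p ∉ closedBall x 8` then `‖q‖ > 5/2` and `σ`
vanishes near `q` (`SJB_of_eventually_zero`). `vol_kernel2` bounds the integral of `f ^ 2`.
-/

namespace Vale.Agent.P204

open scoped ContDiff Topology
open Metric MeasureTheory Set Filter

noncomputable section

theorem Loc.gam_maj (D : Loc) (k : ℕ) (C₀ : ℝ) : ∃ K ≥ 0, ∃ t₀ > 0,
    ∀ x ∈ closedBall (0 : E) 2, ∀ t s : ℝ, 0 < t → t ≤ t₀ → t ≤ s →
      IsLoc (5 / 2) (fun p => pm (D.J p) (d1 (D.gam x s) p)) ∧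
      (∀ p, pm (D.J p) (pm (D.J p) (d1 (D.gam x s) p)) = pm (D.J p) (d1 (D.gam x s) p)) ∧
      LMaj (fun p => pm (D.J p) (d1 (D.gam x s) p)) k t C₀ K := by
  obtain ⟨N, hN, hN2⟩ := D.exists_N2
  obtain ⟨A, hA1, hA⟩ := jb_supp hN k
  obtain ⟨K, hK0, hK⟩ := th_jet D.c D.C k
  obtain ⟨V, hV0, hV⟩ := vol_kernel2
  have hL : 0 < |C₀| + 1 := by positivity
  set M : ℝ := 2 ^ k * A * K * (|C₀| + 1) with hM
  have hM0 : 0 ≤ M := by positivity
  refine ⟨M * √V, by positivity, 1 / (|C₀| + 1), by positivity, fun x hx t s ht ht0 hts => ?_⟩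
  have hs : 0 < s := ht.trans_le hts
  have hx3 : x ∈ closedBall (0 : E) 3 := closedBall_subset_closedBall (by norm_num) hx
  have hg := (D.gam_supp hx3 hs).d1
  have hloc : IsLoc (5 / 2) fun p => pm (D.J p) (d1 (D.gam x s) p) :=
    ⟨hg.1.clm_on isOpen_univ (contDiff_pm.comp D.J_smooth).contDiffOn (subset_univ _),
      fun p => (hg.2 p).pm _⟩
  have ht2 : t * (|C₀| + 1) ≤ 1 := (le_div_iff₀ hL).1 ht0
  have hCt : |C₀| * t ≤ 1 := by nlinarith
  have ht1 : t ≤ 1 := by nlinarith [abs_nonneg C₀]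
  refine ⟨hloc, fun p => ?_, ?_⟩
  · by_cases hp : p ∈ closedBall (0 : E) 3
    · exact pm_pm (D.herm p hp).sq _
    · have h0 := hloc.1.2 p fun h => hp (closedBall_subset_closedBall (by norm_num) h)
      simp only at h0
      rw [h0, map_zero]
  have hc : Continuous fun p : E => M / (‖p - x‖ + t) :=
    continuous_const.div (by fun_prop) fun p => by positivity
  have hsq : (fun p => (closedBall x 8).indicator (fun p : E => M / (‖p - x‖ + t)) p ^ 2) =
      (closedBall x 8).indicator fun p : E => M ^ 2 * (1 / (‖p - x‖ + t) ^ 2) := by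
    funext p
    by_cases hp : p ∈ closedBall x 8
    · simp only [indicator_of_mem hp]
      rw [div_pow, mul_one_div]
    · simp [indicator_of_notMem hp]
  refine ⟨(closedBall x 8).indicator fun p => M / (‖p - x‖ + t),
    hc.measurable.indicator measurableSet_closedBall,
    fun p => indicator_nonneg (fun p _ => by positivity) p, ?_, ?_, fun p q hq => ?_⟩
  · rw [hsq, integrable_indicator_iff measurableSet_closedBall]
    refine ContinuousOn.integrableOn_compact (isCompact_closedBall x 8) (Continuous.continuousOn ?_)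
    exact continuous_const.mul (continuous_const.div (by fun_prop) fun p => by positivity)
  · rw [hsq, integral_indicator measurableSet_closedBall, integral_const_mul, mul_pow M √V,
      Real.sq_sqrt hV0.le]
    exact mul_le_mul_of_nonneg_left (hV x t ht) (sq_nonneg M)
  have hq1 : ‖q - p‖ ≤ |C₀| * t :=
    (mem_closedBall_iff_norm.1 hq).trans (mul_le_mul_of_nonneg_right (le_abs_self _) ht.le)
  have htri : ‖p - x‖ ≤ ‖q - x‖ + ‖q - p‖ := by
    have := norm_sub_le (q - x) (q - p)
    rwa [show q - x - (q - p) = p - x by abel] at this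
  by_cases hp : p ∈ closedBall x 8
  · rw [indicator_of_mem hp]
    have e : (fun p => pm (D.J p) (d1 (D.gam x s) p)) = fun p => N p (th (D.g x) x s p) :=
      funext fun p => hN2 x hx3 s hs p
    rw [e]
    have h1 := ((JB_iff_SJB _ _ _ _).1 (hA q)).scale ht.le ht1
    have h2 := (hK _ _ (D.herm x hx3) x q s hs).scale ht.le
      (hts.trans (le_add_of_nonneg_left (norm_nonneg _)))
    refine (SJB.clm_apply ht.le hN.1.contDiffAt ((D.herm x hx3).contDiff_th x hs).contDiffAt h1
      h2).mono le_rfl ?_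
    rw [← mul_div_assoc, div_le_div_iff₀ (by positivity) (by positivity), hM, mul_assoc _ (|C₀| + 1)]
    refine mul_le_mul_of_nonneg_left ?_ (by positivity)
    nlinarith [abs_nonneg C₀, norm_nonneg (q - x), mul_le_mul_of_nonneg_left hts (abs_nonneg C₀),
      mul_nonneg (abs_nonneg C₀) (norm_nonneg (q - x))]
  · rw [indicator_of_notMem hp]
    refine SJB_of_eventually_zero ?_
    have hq2 : q ∉ closedBall (0 : E) (5 / 2) := fun h => by
      have h1 := mem_closedBall_zero_iff.1 h
      have h2 := mem_closedBall_zero_iff.1 hx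
      have h3 := norm_sub_le q x
      exact hp (mem_closedBall_iff_norm.2 (by linarith))
    filter_upwards [isClosed_closedBall.isOpen_compl.mem_nhds hq2] with y hy
    exact hloc.1.2 y hy

end

end Vale.Agent.P204
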