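import Vale.Agent.P204.L.Err
import Vale.Agent.P204.L.Maj

/-!
P204 L/Grow: the growth estimate.
Plan: `lam_lower`: on `closedBall x s` one has `cf = 1`, `g w w ≥ c ^ 3`, `Q ≤ (C + 1) s ^ 2`
(`Qf_upper`); `setIntegral_le_integral`, `setIntegral_mono_ae_restrict` / `setIntegral_const`.
`absorb`: the infimum `Θ` of the admissible constants (`m / t ^ 2` is one) is admissible
(`le_csInf` after dividing by `r ^ 2`), and so is `Θ / 2 + K + 16 m`. `growth'`: apply the two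
hypotheses to `gam x s` (`gam_supp`, `gam_maj`), `gam_int`, `Pp_nonneg`, `dy_head` (`bm_eq`,
`ζ y = ‖y.1 - x‖`) with `η` so small that `K C η / (2 κ) ≤ 1 / 2`.
-/

namespace Vale.Agent.P204

open scoped ContDiff Topology
open Metric MeasureTheory Set Filter

noncomputable section

theorem Loc.lam_lower (D : Loc) : ∃ κ > 0, ∀ x ∈ closedBall (0 : E) 2, ∀ s : ℝ, 0 < s → s ≤ 1 / 4 →
    κ * bm D.μ x s ≤ D.Lam s x * s ^ 2 :=
by
  have H0 := D.herm 0 (mem_closedBall_self (by norm_num))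
  have c0 := H0.cpos
  have C0 := H0.C_nonneg
  refine ⟨D.c ^ 3 / (D.C + 1) ^ 2, by positivity, fun x hx s hs h4 => ?_⟩
  have x3 : x ∈ closedBall (0 : E) 3 := closedBall_subset_closedBall (by norm_num) hx
  have H := D.herm x x3
  have hi := D.int_cont (D.lamI_cont x3 hs)
  have hS : MeasurableSet (Prod.fst ⁻¹' closedBall x s : Set (E × E)) :=
    measurable_fst measurableSet_closedBall
  have h1 : ∫ _ in Prod.fst ⁻¹' closedBall x s, D.c ^ 3 / (D.C + 1) ^ 2 / s ^ 2 ∂D.μ ≤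
      ∫ y in Prod.fst ⁻¹' closedBall x s, D.lamI s x y ∂D.μ := by
    refine setIntegral_mono_on_ae (integrable_const _).integrableOn hi.integrableOn hS
      (D.supp.mono fun y hy hy' => ?_)
    have z : ‖y.1 - x‖ ≤ s := mem_closedBall_iff_norm.1 hy'
    have y1 : y.1 ∈ closedBall (0 : E) (9 / 4) := by
      have := norm_add_le (y.1 - x) x
      rw [sub_add_cancel] at this
      have := mem_closedBall_zero_iff.1 hx
      exact mem_closedBall_zero_iff.2 (by linarith)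
    have q1 : D.Q x s y.1 ≤ (D.C + 1) * s ^ 2 := (H.Qf_upper x y.1 s).trans (by
      rw [add_mul, one_mul]; gcongr)
    have q0 : 0 < D.Q x s y.1 := H.Qf_pos x y.1 hs
    have g1 : D.c ^ 3 ≤ D.g x y.2 y.2 := by
      refine le_trans ?_ (H.pos y.2)
      rw [pow_succ' _ 2]
      have := hy.2.1
      gcongr
    have g0 : 0 ≤ D.g x y.2 y.2 := le_trans (by positivity) g1
    rw [Loc.lamI, cf_spec.2.2.2 _ y1, one_mul]
    calc _ = D.c ^ 3 * s ^ 2 / ((D.C + 1) * s ^ 2) ^ 2 := by field_simp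
      _ ≤ _ := by gcongr
  have h2 := h1.trans (setIntegral_le_integral hi (Eventually.of_forall (D.lamI_nonneg x3 s)))
  rw [setIntegral_const, smul_eq_mul, ← mul_div_assoc, div_le_iff₀ (by positivity), mul_comm] at h2
  exact h2

theorem absorb {φ : ℝ → ℝ} {m t K : ℝ} (ht : 0 < t) (hK : 0 ≤ K) (hm : 0 ≤ m) (h1 : ∀ r, φ r ≤ m)
    (h2 : ∀ Θ ≥ 0, (∀ r, t ≤ r → φ r ≤ Θ * r ^ 2) → ∀ s, t ≤ s → s ≤ 1 / 4 →
      φ s ≤ (Θ / 2 + K) * s ^ 2) : ∀ s, t ≤ s → φ s ≤ (2 * K + 32 * m) * s ^ 2 :=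
by
  obtain ⟨A, hA⟩ : ∃ A : Set ℝ, A = {Θ | 0 ≤ Θ ∧ ∀ r, t ≤ r → φ r ≤ Θ * r ^ 2} := ⟨_, rfl⟩
  have a1 : A.Nonempty := ⟨m / t ^ 2, hA ▸ ⟨by positivity, fun r hr => (h1 r).trans (by
    calc m = m / t ^ 2 * t ^ 2 := by field_simp
      _ ≤ _ := by gcongr)⟩⟩
  have a2 : BddBelow A := ⟨0, fun _ h => (hA ▸ h).1⟩
  have b0 : 0 ≤ sInf A := le_csInf a1 fun _ h => (hA ▸ h).1
  have b1 : ∀ r, t ≤ r → φ r ≤ sInf A * r ^ 2 := fun r hr => by
    have r0 : 0 < r ^ 2 := pow_pos (ht.trans_le hr) 2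
    rw [← div_le_iff₀ r0]
    exact le_csInf a1 fun Θ h => (div_le_iff₀ r0).2 ((hA ▸ h).2 r hr)
  have b2 : sInf A ≤ sInf A / 2 + K + 16 * m := csInf_le a2 (by
    rw [hA, mem_ofPred_eq, ← hA]
    refine ⟨by positivity, fun r hr => ?_⟩
    have r0 := sq_nonneg r
    rcases le_total r (1 / 4) with h | h
    · exact (h2 _ b0 b1 r hr h).trans (mul_le_mul_of_nonneg_right (by linarith) r0)
    · have k : (1 / 4 : ℝ) ^ 2 ≤ r ^ 2 := by gcongr
      have k1 := mul_le_mul_of_nonneg_left k hm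
      have k2 : 0 ≤ (sInf A / 2 + K) * r ^ 2 := by positivity
      linarith [h1 r])
  exact fun s hs => (b1 s hs).trans (mul_le_mul_of_nonneg_right (by linarith) (sq_nonneg s))

theorem Loc.growth' (D : Loc) (k : ℕ) (C₀ : ℝ) : ∃ C ≥ 1, ∃ t₀ > 0, ∀ (A : (E → Bil) → ℝ)
    (α t : ℝ), 0 ≤ α → 0 < t → t ≤ t₀ →
    (∀ γ : E → Cov, Supp (5 / 2) γ →
      ∫ y, D.lin (d1 γ) y ∂D.μ + A (fun p => pm (D.J p) (d1 γ p)) = 0) →
    (∀ s c, IsLoc (5 / 2) s → (∀ p, pm (D.J p) (s p) = s p) → 0 ≤ c → LMaj s k t C₀ c →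
      |A s| ≤ α * c) →
    ∀ x ∈ closedBall (0 : E) 2, ∀ s, t ≤ s → bm D.μ x s ≤ C * (1 + α) * s ^ 2 :=
by
  obtain ⟨K, K0, hK⟩ := D.gam_int
  obtain ⟨K', K0', t₀, t0, hK'⟩ := D.gam_maj k C₀
  obtain ⟨κ, κ0, hκ⟩ := D.lam_lower
  obtain ⟨B, B0, hB⟩ := dy_head (X := E × E)
  obtain ⟨m, hm⟩ : ∃ m, m = D.μ.real univ := ⟨_, rfl⟩
  have m0 : 0 ≤ m := hm ▸ measureReal_nonneg
  obtain ⟨η, hη⟩ : ∃ η, η = κ / (K * B + 1) := ⟨_, rfl⟩
  have η0 : 0 < η := by rw [hη]; positivity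
  have η1 : K * B * η ≤ κ := by
    rw [hη, ← mul_div_assoc, div_le_iff₀ (by positivity)]
    linarith
  obtain ⟨a, ha⟩ : ∃ a, a = K' / κ := ⟨_, rfl⟩
  obtain ⟨b, hb⟩ : ∃ b, b = K * (m / η) / κ := ⟨_, rfl⟩
  have a0 : 0 ≤ a := by rw [ha]; positivity
  have b0 : 0 ≤ b := by rw [hb]; positivity
  have a1 : κ * a = K' := by rw [ha]; field_simp
  have b1 : κ * b = K * (m / η) := by rw [hb]; field_simp
  refine ⟨1 + a + b + 32 * m, by linarith, t₀, t0, fun A α t hα ht htt h1 h2 x hx s hs => ?_⟩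
  have x3 : x ∈ closedBall (0 : E) 3 := closedBall_subset_closedBall (by norm_num) hx
  refine (absorb (φ := bm D.μ x) (m := m) (K := (α * a + b) / 2) ht (by positivity) m0
    (fun r => hm ▸ measureReal_mono (subset_univ _)) (fun Θ Θ0 hΘ r hr r4 => ?_) s hs).trans
    (mul_le_mul_of_nonneg_right ?_ (sq_nonneg s))
  · have r0 := ht.trans_le hr
    obtain ⟨i1, i2, i3⟩ := hK' x hx t r ht htt hr
    have j1 := h1 _ (D.gam_supp x3 r0)
    have j2 := (neg_le_abs _).trans (h2 _ _ i1 i2 K0' i3)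
    have j3 := hK x x3 r r0
    have j4 := D.Pp_nonneg x3 r
    have j5 := hB D.μ (fun y => ‖y.1 - x‖) (measurable_fst.sub_const x).norm
      (fun _ => norm_nonneg _) Θ r η r0 η0 Θ0 fun u hu => (bm_eq _ _ _).trans_le
        (hΘ u (hr.trans hu))
    rw [← hm] at j5
    have j6 := mul_le_mul_of_nonneg_left j5 K0
    have j7 := mul_le_mul_of_nonneg_right η1 Θ0
    have j8 : D.Lam r x ≤ κ * (Θ / 2 + (α * a + b) / 2) := by
      rw [← a1] at j2
      linarith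
    refine le_of_mul_le_mul_left ((hκ x hx r r0 r4).trans ?_) κ0
    rw [← mul_assoc]
    exact mul_le_mul_of_nonneg_right j8 (sq_nonneg r)
  · have := mul_nonneg hα b0
    have := mul_nonneg hα m0
    linarith

end

end Vale.Agent.P204
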