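import Vale.Agent.P204.L.Bas

/-!
P204 L/Lam: `Lam s` is smooth; its derivative; crude bounds.
Plan: `Φ (y, x) = lamI s x y` is smooth on `univ ×ˢ ball 0 3` (`ContDiffOn.div`, `Qf_pos`),
`contDiffOn_pint`, `fderiv_pint` with `K = closedBall 0 3 ×ˢ closedBall 0 D.C`,
`ContinuousLinearMap.integral_apply`; the derivative of `x ↦ lamI s x y` by `HasFDerivAt.clm_apply`,
`HasFDerivAt.div`-type rules and `symm`. Crude bounds: where `cf y.1 ≠ 0` one has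
`‖z‖ + s ≤ 6` (`cf_ne`), `Q ≥ κ (‖z‖ + s)²` (`Q_lower`), `dg_bd`, so `lamI ≤ K ks` and
`|dlamI v| ≤ K ‖v‖ ks`; `ContinuousLinearMap.opNorm_le_bound`.
-/

namespace Vale.Agent.P204

open scoped ContDiff Topology
open Metric MeasureTheory Set Filter

noncomputable section

theorem ks_cont {s : ℝ} (hs : 0 < s) : Continuous (ks s) :=
  continuous_const.div ((continuous_norm.add continuous_const).pow 5) fun z => by positivity

theorem ks_nonneg {s : ℝ} (hs : 0 < s) (z : E) : 0 ≤ ks s z :=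
by
  unfold ks; positivity

theorem Loc.phi_Lam (D : Loc) {s : ℝ} (hs : 0 < s) :
    ContDiffOn ℝ ∞ (fun p : (E × E) × E => D.lamI s p.2 p.1) (univ ×ˢ ball 0 3) := by
  have hg : ContDiff ℝ ∞ fun p : (E × E) × E => D.g p.2 := D.g_smooth.comp contDiff_snd
  have h1 : ContDiff ℝ ∞ fun p : (E × E) × E => p.1.1 := contDiff_fst.fst
  have h2 : ContDiff ℝ ∞ fun p : (E × E) × E => p.1.2 := contDiff_fst.snd
  have hz := h1.sub contDiff_snd
  refine ContDiffOn.div ((cf_spec.1.1.comp h1).mul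
    (((hg.clm_apply h2).clm_apply h2).mul contDiff_const)).contDiffOn
    ((((hg.clm_apply hz).clm_apply hz).add contDiff_const).pow 2).contDiffOn fun p hp => ?_
  exact pow_ne_zero _ ((D.herm _ (ball_subset_closedBall hp.2)).Qf_pos _ _ hs).ne'

theorem Loc.ae_Lam (D : Loc) : ∀ᵐ y ∂D.μ, y ∈ closedBall (0 : E) 3 ×ˢ closedBall (0 : E) D.C :=
  D.supp.mono fun _ hy => ⟨hy.1, mem_closedBall_zero_iff.2 hy.2.2⟩

theorem Loc.d_Lam (D : Loc) {s : ℝ} (hs : 0 < s) {x : E} (hx : x ∈ closedBall (0 : E) 3) (v : E)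
    (y : E × E) : fderiv ℝ (fun q => D.lamI s q y) x v = D.dlamI s x v y := by
  have hg : HasFDerivAt D.g (fderiv ℝ D.g x) x :=
    (D.g_smooth.differentiable (by simp) x).hasFDerivAt
  have hw := hasFDerivAt_const (𝕜 := ℝ) y.2 x
  have hz : HasFDerivAt (fun q : E => y.1 - q) (-ContinuousLinearMap.id ℝ E) x :=
    (hasFDerivAt_id x).const_sub _
  have hN := (((hg.clm_apply hw).clm_apply hw).mul_const (s ^ 2)).const_mul (cf y.1)
  have hQ := (((hg.clm_apply hz).clm_apply hz).add_const (s ^ 2)).pow 2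
  have q0 : D.g x (y.1 - x) (y.1 - x) + s ^ 2 ≠ 0 := ((D.herm _ hx).Qf_pos x y.1 hs).ne'
  have h := (hN.mul ((hasDerivAt_inv (pow_ne_zero 2 q0)).comp_hasFDerivAt x hQ)).fderiv
  have e1 : (fun q => D.lamI s q y) = (fun q => cf y.1 * (D.g q y.2 y.2 * s ^ 2)) *
      ((fun t : ℝ => t⁻¹) ∘ fun q => (D.g q (y.1 - q) (y.1 - q) + s ^ 2) ^ 2) :=
    funext fun q => div_eq_mul_inv _ _
  rw [e1, h]
  simp [Loc.dlamI, Loc.Q, Qf, -map_sub, (D.herm _ hx).symm v]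
  field_simp
  ring

theorem Loc.lam_smooth (D : Loc) {s : ℝ} (hs : 0 < s) : ContDiffOn ℝ ∞ (D.Lam s) (ball 0 3) :=
  contDiffOn_pint D.μ ((isCompact_closedBall _ _).prod (isCompact_closedBall _ _)) D.ae_Lam
    (isOpen_univ.prod isOpen_ball) (D.phi_Lam hs) isOpen_ball (prod_mono (subset_univ _) le_rfl)

theorem Loc.fderiv_lam (D : Loc) {s : ℝ} (hs : 0 < s) {x : E} (hx : x ∈ ball (0 : E) 3) (v : E) :
    fderiv ℝ (D.Lam s) x v = ∫ y, D.dlamI s x v y ∂D.μ :=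
by
  obtain ⟨h1, h2⟩ := fderiv_pint D.μ ((isCompact_closedBall _ _).prod (isCompact_closedBall _ _))
    D.ae_Lam (isOpen_univ.prod isOpen_ball) (D.phi_Lam hs) isOpen_ball
    (prod_mono (subset_univ _) le_rfl) hx
  refine (congrArg (fun L : E →L[ℝ] ℝ => L v) h2).trans ?_
  simp only
  rw [ContinuousLinearMap.integral_apply h1]
  exact integral_congr_ae (Eventually.of_forall fun y => D.d_Lam hs (ball_subset_closedBall hx) v y)

theorem a2_Lam {a κ Q s N M : ℝ} (ha : 0 < a) (h6 : a ≤ 6) (hκ : 0 < κ) (hQ : κ * a ^ 2 ≤ Q)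
    (hN : |N| ≤ M) : |N * s ^ 2 / Q ^ 2| ≤ 6 * M / κ ^ 2 * (s ^ 2 / a ^ 5) := by
  have M0 : 0 ≤ M := (abs_nonneg _).trans hN
  rw [abs_div, abs_mul, abs_of_nonneg (sq_nonneg s), abs_of_nonneg (sq_nonneg Q)]
  calc |N| * s ^ 2 / Q ^ 2 ≤ M * s ^ 2 / (κ * a ^ 2) ^ 2 := by gcongr
    _ = a * M / κ ^ 2 * (s ^ 2 / a ^ 5) := by field_simp
    _ ≤ _ := by gcongr

theorem a3_Lam {a κ Q s N M : ℝ} (ha : 0 < a) (hκ : 0 < κ) (hQ : κ * a ^ 2 ≤ Q)
    (hN : |N| ≤ M * a) : |N * s ^ 2 / Q ^ 3| ≤ M / κ ^ 3 * (s ^ 2 / a ^ 5) := by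
  have M0 : 0 ≤ M * a := (abs_nonneg _).trans hN
  have Q0 : 0 < Q := lt_of_lt_of_le (by positivity) hQ
  rw [abs_div, abs_mul, abs_of_nonneg (sq_nonneg s), abs_of_nonneg (pow_pos Q0 3).le]
  calc |N| * s ^ 2 / Q ^ 3 ≤ M * a * s ^ 2 / (κ * a ^ 2) ^ 3 := by gcongr
    _ = _ := by field_simp

theorem b_Lam {B : Bil} {u v : E} {C a b : ℝ} (hB : ‖B‖ ≤ C) (hu : ‖u‖ ≤ a) (hv : ‖v‖ ≤ b) :
    |B u v| ≤ C * a * b := by
  have C0 := (norm_nonneg _).trans hB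
  have a0 := (norm_nonneg _).trans hu
  exact (B.le_opNorm₂ u v).trans (by gcongr)

theorem Loc.pt_Lam (D : Loc) : ∃ K ≥ 0, ∀ x ∈ closedBall (0 : E) 2, ∀ s ∈ Ioc (0 : ℝ) 1,
    ∀ y : E × E, ‖y.2‖ ≤ D.C → D.lamI s x y ≤ K * ks s (x - y.1) ∧
      ∀ v, ‖D.dlamI s x v y‖ ≤ K * ‖v‖ * ks s (x - y.1) := by
  obtain ⟨κ, hκ, hQ⟩ := D.Q_lower
  obtain ⟨L, L0, hL⟩ := D.dg_bd
  have C0 : 0 ≤ D.C := (D.herm 0 (mem_closedBall_self (by norm_num))).C_nonneg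
  obtain ⟨K1, e1⟩ : ∃ K, K = 6 * (D.C * D.C * D.C) / κ ^ 2 := ⟨_, rfl⟩
  obtain ⟨K2, e2⟩ : ∃ K, K = 6 * (L * D.C * D.C) / κ ^ 2 := ⟨_, rfl⟩
  obtain ⟨K3, e3⟩ : ∃ K, K = 2 * (D.C * D.C * D.C) * (L * 6 + 2 * D.C) / κ ^ 3 := ⟨_, rfl⟩
  have k1 : 0 ≤ K1 := by rw [e1]; positivity
  have k2 : 0 ≤ K2 := by rw [e2]; positivity
  have k3 : 0 ≤ K3 := by rw [e3]; positivity
  refine ⟨K1 + (K2 + K3), by positivity, fun x hx s hs y hy => ?_⟩
  have kk := ks_nonneg hs.1 (x - y.1)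
  by_cases hc : cf y.1 = 0
  · refine ⟨?_, fun v => ?_⟩
    · simp only [Loc.lamI, hc, zero_mul, zero_div]; positivity
    · simp only [Loc.dlamI, hc, zero_mul, mul_zero, zero_div, sub_zero, norm_zero]; positivity
  have x3 : x ∈ closedBall (0 : E) 3 := closedBall_subset_closedBall (by norm_num) hx
  have H := D.herm x x3
  have s0 := hs.1
  obtain ⟨a, ea⟩ : ∃ a, a = ‖y.1 - x‖ + s := ⟨_, rfl⟩
  have a0 : 0 < a := by rw [ea]; positivity
  have za : ‖y.1 - x‖ ≤ a := by rw [ea]; linarith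
  have a6 : a ≤ 6 := by
    have := norm_sub_le y.1 x
    have := cf_ne hc
    have := mem_closedBall_zero_iff.1 hx
    linarith [hs.2]
  have q := hQ x x3 s s0.le y.1
  have ek : ks s (x - y.1) = s ^ 2 / a ^ 5 := by rw [ks, norm_sub_rev, ea]
  rw [← ea] at q
  have c1 : |cf y.1| ≤ 1 := by rw [abs_of_nonneg (cf_spec.2.1 _)]; exact cf_spec.2.2.1 _
  have cm : ∀ {N M : ℝ}, |N| ≤ M → |cf y.1 * N| ≤ M := fun h => by
    rw [abs_mul]; exact (mul_le_of_le_one_left (abs_nonneg _) c1).trans h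
  have g1 := cm (b_Lam H.gle hy hy)
  refine ⟨?_, fun v => ?_⟩
  · have h := (le_abs_self _).trans (a2_Lam (s := s) a0 a6 hκ q g1)
    rw [← e1, ← ek, mul_assoc] at h
    exact h.trans (mul_le_mul_of_nonneg_right (by linarith) kk)
  · have v0 := norm_nonneg v
    have d1 : ‖fderiv ℝ D.g x v‖ ≤ L * ‖v‖ :=
      ((fderiv ℝ D.g x).le_opNorm v).trans (mul_le_mul_of_nonneg_right (hL x x3) v0)
    have h1 := a2_Lam (s := s) a0 a6 hκ q (cm (b_Lam d1 hy hy))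
    have g2 : |fderiv ℝ D.g x v (y.1 - x) (y.1 - x) - 2 * D.g x (y.1 - x) v| ≤
        (L * 6 + 2 * D.C) * ‖v‖ * a := by
      refine (abs_sub _ _).trans ?_
      rw [abs_mul, abs_two]
      linarith [b_Lam d1 (za.trans a6) za, b_Lam H.gle za (le_refl ‖v‖)]
    have g3 : |2 * (cf y.1 * D.g x y.2 y.2) *
        (fderiv ℝ D.g x v (y.1 - x) (y.1 - x) - 2 * D.g x (y.1 - x) v)| ≤
        2 * (D.C * D.C * D.C) * ((L * 6 + 2 * D.C) * ‖v‖) * a := by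
      rw [abs_mul, abs_mul, abs_two, mul_assoc _ _ a]
      gcongr
    have h2 := a3_Lam (s := s) a0 hκ q g3
    have e : D.dlamI s x v y = cf y.1 * fderiv ℝ D.g x v y.2 y.2 * s ^ 2 / D.Q x s y.1 ^ 2 -
        2 * (cf y.1 * D.g x y.2 y.2) *
        (fderiv ℝ D.g x v (y.1 - x) (y.1 - x) - 2 * D.g x (y.1 - x) v) * s ^ 2 /
          D.Q x s y.1 ^ 3 := by rw [Loc.dlamI]; ring
    rw [e, Real.norm_eq_abs]
    refine (abs_sub _ _).trans ((add_le_add h1 h2).trans ?_)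
    rw [← ek]
    calc _ = (K2 + K3) * ‖v‖ * ks s (x - y.1) := by rw [e2, e3]; ring
      _ ≤ _ := mul_le_mul_of_nonneg_right (mul_le_mul_of_nonneg_right (by linarith) v0) kk

theorem Loc.lam_crude (D : Loc) : ∃ K ≥ 0, ∀ x ∈ closedBall (0 : E) 2, ∀ s ∈ Ioc (0 : ℝ) 1,
    D.Lam s x ≤ K * ∫ y, ks s (x - y.1) ∂D.μ ∧
      ‖fderiv ℝ (D.Lam s) x‖ ≤ K * ∫ y, ks s (x - y.1) ∂D.μ :=
by
  obtain ⟨K, K0, hK⟩ := D.pt_Lam
  refine ⟨K, K0, fun x hx s hs => ?_⟩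
  have x3 : x ∈ ball (0 : E) 3 := closedBall_subset_ball (by norm_num) hx
  have x3' := ball_subset_closedBall x3
  have hi : Integrable (fun y : E × E => ks s (x - y.1)) D.μ :=
    D.int_cont ((ks_cont hs.1).comp (continuous_const.sub continuous_fst))
  have i0 : 0 ≤ ∫ y, ks s (x - y.1) ∂D.μ := integral_nonneg fun y => ks_nonneg hs.1 _
  constructor
  · rw [← integral_const_mul]
    exact integral_mono_ae (D.int_cont (D.lamI_cont x3' hs.1)) (hi.const_mul _)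
      (D.supp.mono fun y hy => (hK x hx s hs y hy.2.2).1)
  · refine ContinuousLinearMap.opNorm_le_bound _ (by positivity) fun v => ?_
    rw [D.fderiv_lam hs.1 x3, mul_right_comm, ← integral_const_mul]
    exact norm_integral_le_of_norm_le (hi.const_mul _)
      (D.supp.mono fun y hy => (hK x hx s hs y hy.2.2).2 v)

end

end Vale.Agent.P204
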