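import Vale.Agent.P204.L.Err
import Vale.Agent.P204.L.Aside

/-!
P204 L/Lim: bounds for `Lam`, `Pp` and existence of the density.
Plan: `bdd`: `H.cl (gam x s)`, `gam_int`, `a_bdd`, `dy_head` with `η = 1` (`bm_eq`). `ppM`:
`fatou_bd`, `ppI_lim`, `Lam_nonneg`. `conv`: `2 Lam = - ∫ a (..) - 2 Pp - ∫ Er` (`gam_err`,
`int_cont`; `Er x s` is continuous as a difference); `Pp (sn n)` converges by dominated convergence
(`ppI_le`, `ppM`), `∫ Er` too with bound `K / ‖y.1 - x‖` (`dy_zero`), `a_conv`.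
-/

namespace Vale.Agent.P204

open scoped ContDiff Topology
open Metric MeasureTheory Set Filter

noncomputable section

variable {D : Loc} {a : E → Bil →L[ℝ] ℝ}

theorem sub_Lim {x : E} (hx : x ∈ closedBall (0 : E) 2) : x ∈ closedBall (0 : E) 3 :=
  closedBall_subset_closedBall (by norm_num) hx

theorem Loc.Hyp.bdd (H : D.Hyp a) : ∃ K ≥ 0, ∀ x ∈ closedBall (0 : E) 2, ∀ s > 0,
    D.Lam s x ≤ K ∧ D.Pp s x ≤ K := by
  obtain ⟨Θ, hΘ, hg⟩ := H.gr
  obtain ⟨K1, h1, g1⟩ := D.gam_int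
  obtain ⟨K2, g2⟩ := H.a_bdd
  obtain ⟨C, hC, g3⟩ := dy_head (X := E × E)
  refine ⟨|K2| + K1 * (C * Θ * 1 + D.μ.real univ / 1), by positivity, fun x hx s hs => ?_⟩
  have a1 := g1 x (sub_Lim hx) s hs
  have a2 := (abs_le.1 (g2 x hx s hs)).1
  have a3 := mul_le_mul_of_nonneg_left (g3 D.μ (fun y => ‖y.1 - x‖) (by fun_prop)
    (fun _ => norm_nonneg _) Θ s 1 hs one_pos hΘ fun r hr =>
      (bm_eq _ _ _).trans_le (hg x hx r (hs.trans_le hr))) h1
  have a4 := H.cl _ (D.gam_supp (sub_Lim hx) hs)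
  have a5 := D.Lam_nonneg (sub_Lim hx) s
  have a6 := D.Pp_nonneg (sub_Lim hx) s
  constructor <;> linarith [le_abs_self K2]

theorem Loc.Hyp.ppM (H : D.Hyp a) : ∃ K, ∀ x ∈ closedBall (0 : E) 2,
    Integrable (D.ppI 0 x) D.μ ∧ ∫ y, D.ppI 0 x y ∂D.μ ≤ K := by
  obtain ⟨K, -, h⟩ := H.bdd
  exact ⟨K, fun x hx => fatou_bd (fun n => D.ppI_nonneg (sub_Lim hx) (sn n))
    (fun n => D.int_cont (D.ppI_cont (sub_Lim hx) (sn_pos n))) (fun n => (h x hx _ (sn_pos n)).2)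
    (D.ppI_lim (sub_Lim hx))⟩

theorem Loc.Hyp.conv (H : D.Hyp a) {x : E} (hx : x ∈ closedBall (0 : E) 2) :
    ∃ l, Tendsto (fun n => D.Lam (sn n) x) atTop (𝓝 l) := by
  have hx3 := sub_Lim hx
  obtain ⟨Θ, -, hg⟩ := H.gr
  obtain ⟨K, hK, Er, h⟩ := D.gam_err
  obtain ⟨e1, e2, e3⟩ := h x hx3
  obtain ⟨K', hp⟩ := H.ppM
  obtain ⟨l, hl⟩ := H.a_conv hx
  obtain ⟨z1, z2⟩ := dy_zero D.μ (fun y => ‖y.1 - x‖) (by fun_prop) (fun _ => norm_nonneg _)
    fun r hr => (bm_eq _ _ _).trans_le (hg x hx r hr)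
  have c1 := fun n => D.lamI_cont hx3 (sn_pos n)
  have c2 := fun n => D.ppI_cont hx3 (sn_pos n)
  have c3 := fun n => D.lin_cont (D.gam_supp hx3 (sn_pos n)).d1.1.1.continuous
  have c4 : ∀ n, Continuous (Er x (sn n)) := fun n =>
    (((c3 n).sub ((c1 n).const_mul 2)).sub ((c2 n).const_mul 2)).congr fun y => by
      simp only [Pi.sub_apply]
      linarith [e1 _ (sn_pos n) y]
  have t1 : Tendsto (fun n => D.Pp (sn n) x) atTop (𝓝 (∫ y, D.ppI 0 x y ∂D.μ)) :=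
    tendsto_integral_of_dominated_convergence _ (fun n => (c2 n).aestronglyMeasurable) (hp x hx).1
      (fun n => Eventually.of_forall fun y =>
        (Real.norm_of_nonneg (D.ppI_nonneg hx3 _ y)).trans_le (D.ppI_le hx3 _ y))
      (Eventually.of_forall (D.ppI_lim hx3))
  have t2 : Tendsto (fun n => ∫ y, Er x (sn n) y ∂D.μ) atTop (𝓝 (∫ y, Er x 0 y ∂D.μ)) := by
    refine tendsto_integral_of_dominated_convergence _ (fun n => (c4 n).aestronglyMeasurable)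
      (z1.const_mul K) (fun n => ?_) ?_
    · filter_upwards [D.supp, z2] with y h1 h2
      exact (e2 _ (sn_pos n) y h1.2.2).trans (mul_le_mul_of_nonneg_left (one_div_le_one_div_of_le
        ((norm_nonneg _).lt_of_ne' h2) (le_add_of_nonneg_right (sn_pos n).le)) hK)
    · filter_upwards [z2] with y h2
      exact (e3 y (sub_ne_zero.1 (norm_ne_zero_iff.1 h2))).tendsto.comp sn_lim
  refine ⟨_, ((((hl.neg.sub (t1.const_mul 2)).sub t2).div_const 2).congr fun n => ?_)⟩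
  have i1 := (D.int_cont (c1 n)).const_mul 2
  have i2 := (D.int_cont (c2 n)).const_mul 2
  have a4 := H.cl _ (D.gam_supp hx3 (sn_pos n))
  have a5 := integral_add (i1.add i2) (D.int_cont (c4 n))
  simp only [Pi.add_apply, ← e1 _ (sn_pos n)] at a5
  rw [integral_add i1 i2, integral_const_mul, integral_const_mul] at a5
  rw [Loc.Lam, Loc.Pp]
  linarith

end

end Vale.Agent.P204
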