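import Vale.Agent.P204.L.Lam

/-!
P204 L/Null: the kernel `ks` against an `L²` function.
Plan: `ks s z ≤ s⁻¹ ^ 3` and `vol_kernel5` give integrability of `ks` and `ks²` with bounds
independent of the centre; `|a| ks ≤ (a² + ks²) / 2`. `ks_swap`: `integrable_prod_iff`,
`Integrable.integral_prod_left`, `integral_integral_swap`, `integral_const_mul`.
`ks_null`: `weak_null` for `volume.restrict S` and `h n y = ∫ ks (sn n) (y - x.1) ∂ν`:
`h n ≤ C Θ / s` on `S` (`dy_tail 5 2`, `bm_eq`, `norm_sub_rev`), `∫ h n ≤ C mass s` (Fubini),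
measurability `StronglyMeasurable.integral_prod_right'`.
-/

namespace Vale.Agent.P204

open scoped ContDiff Topology
open Metric MeasureTheory Set Filter

noncomputable section

theorem ks_eq_Null (s : ℝ) (z : E) : ks s z = s ^ 2 * (1 / (‖z‖ + s) ^ 5) := by
  rw [ks, mul_one_div]

theorem ks_int_Null : ∃ C > 0, ∀ (x : E) (s : ℝ), 0 < s →
    Integrable (fun y => ks s (y - x)) ∧ ∫ y, ks s (y - x) ≤ C * s := by
  obtain ⟨C, hC, h⟩ := vol_kernel5
  refine ⟨C, hC, fun x s hs => ?_⟩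
  simp only [ks_eq_Null]
  refine ⟨(h x s hs).1.const_mul _, ?_⟩
  rw [integral_const_mul]
  refine (mul_le_mul_of_nonneg_left (h x s hs).2 (sq_nonneg s)).trans (le_of_eq ?_)
  field_simp

theorem ks_le_Null {s : ℝ} (hs : 0 < s) (z : E) : ks s z ≤ s ^ 2 / s ^ 5 := by
  rw [ks]
  gcongr
  exact le_add_of_nonneg_left (norm_nonneg _)

theorem aks_bd_Null {a : E → ℝ} (ha : MemLp a 2 volume) {s : ℝ} (hs : 0 < s) : ∃ B, ∀ x : E,
    Integrable (fun y => |a y| * ks s (y - x)) ∧ ∫ y, |a y| * ks s (y - x) ≤ B := by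
  obtain ⟨C, -, h⟩ := ks_int_Null
  refine ⟨(∫ y, a y ^ 2) + s ^ 2 / s ^ 5 * (C * s), fun x => ?_⟩
  have h1 : Integrable (fun y => a y ^ 2) := ha.integrable_sq
  have h2 := (h x s hs).1.const_mul (s ^ 2 / s ^ 5)
  have h3 : ∀ y, |a y| * ks s (y - x) ≤ a y ^ 2 + s ^ 2 / s ^ 5 * ks s (y - x) := fun y => by
    have b1 := ks_nonneg hs (y - x)
    have b2 := mul_le_mul_of_nonneg_right (ks_le_Null hs (y - x)) b1
    have b3 := abs_nonneg (a y)
    rw [← sq_abs (a y)]
    nlinarith [sq_nonneg (|a y| - ks s (y - x)), mul_nonneg b3 b1]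
  have h4 : Integrable (fun y => |a y| * ks s (y - x)) := by
    refine (h1.add h2).mono' ((continuous_abs.comp_aestronglyMeasurable ha.1).mul
      ((ks_cont hs).comp (continuous_id.sub continuous_const)).aestronglyMeasurable)
      (ae_of_all _ fun y => ?_)
    rw [Real.norm_of_nonneg (mul_nonneg (abs_nonneg _) (ks_nonneg hs _))]
    exact h3 y
  have h5 : Integrable (fun y => a y ^ 2 + s ^ 2 / s ^ 5 * ks s (y - x)) := h1.add h2
  refine ⟨h4, (integral_mono h4 h5 h3).trans ?_⟩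
  rw [integral_add h1 h2, integral_const_mul]
  gcongr
  exact (h x s hs).2

theorem aks_int {a : E → ℝ} (ha : MemLp a 2 volume) {s : ℝ} (hs : 0 < s) (x : E) :
    Integrable fun y => |a y| * ks s (y - x) :=
  ((aks_bd_Null ha hs).choose_spec x).1

theorem swap_Null (ν : Measure (E × E)) [IsFiniteMeasure ν] {b : E → ℝ}
    (hb : AEStronglyMeasurable b volume) (h0 : ∀ y, 0 ≤ b y) {s B : ℝ} (hs : 0 < s)
    (h : ∀ x : E, Integrable (fun y => b y * ks s (y - x)) ∧ ∫ y, b y * ks s (y - x) ≤ B) :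
    Integrable (fun x : E × E => ∫ y, b y * ks s (y - x.1)) ν ∧
      Integrable (fun y => b y * ∫ x, ks s (y - x.1) ∂ν) ∧
      ∫ x : E × E, (∫ y, b y * ks s (y - x.1)) ∂ν = ∫ y, b y * ∫ x, ks s (y - x.1) ∂ν ∧
      ∫ y, b y * ∫ x, ks s (y - x.1) ∂ν ≤ B * ν.real univ := by
  have hm : AEStronglyMeasurable (fun p : (E × E) × E => b p.2 * ks s (p.2 - p.1.1))
      (ν.prod volume) :=
    hb.comp_snd.mul ((ks_cont hs).comp (continuous_snd.sub continuous_fst.fst)).aestronglyMeasurable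
  have hn : ∀ x y : E, ‖b y * ks s (y - x)‖ = b y * ks s (y - x) := fun x y =>
    Real.norm_of_nonneg (mul_nonneg (h0 y) (ks_nonneg hs _))
  have hi : Integrable (fun p : (E × E) × E => b p.2 * ks s (p.2 - p.1.1)) (ν.prod volume) := by
    rw [integrable_prod_iff hm]
    refine ⟨ae_of_all _ fun x => (h x.1).1, (integrable_const B).mono'
      hm.norm.integral_prod_right' (ae_of_all _ fun x => ?_)⟩
    rw [Real.norm_of_nonneg (integral_nonneg fun y => norm_nonneg _)]
    simp only [hn]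
    exact (h x.1).2
  have h1 := hi.integral_prod_left
  have h2 := hi.integral_prod_right
  have h3 := integral_integral_swap (f := fun (x : E × E) (y : E) => b y * ks s (y - x.1)) hi
  simp only [integral_const_mul] at h2 h3
  refine ⟨h1, h2, h3, h3 ▸ (integral_mono h1 (integrable_const B) fun x => (h x.1).2).trans ?_⟩
  rw [integral_const, smul_eq_mul, mul_comm]

theorem ks_swap (ν : Measure (E × E)) [IsFiniteMeasure ν] {a : E → ℝ} (ha : MemLp a 2 volume)
    {s : ℝ} (hs : 0 < s) : Integrable (fun x : E × E => ∫ y, |a y| * ks s (y - x.1)) ν ∧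
      ∫ x : E × E, (∫ y, |a y| * ks s (y - x.1)) ∂ν = ∫ y, |a y| * ∫ x, ks s (y - x.1) ∂ν := by
  obtain ⟨B, hB⟩ := aks_bd_Null ha hs
  have h := swap_Null ν (continuous_abs.comp_aestronglyMeasurable ha.1) (fun y => abs_nonneg _)
    hs hB
  exact ⟨h.1, h.2.2.1⟩

theorem ks_null (ν : Measure (E × E)) [IsFiniteMeasure ν] {a : E → ℝ} (ha : MemLp a 2 volume)
    {S : Set E} (hS : MeasurableSet S) {Θ : ℝ} (hg : ∀ y ∈ S, ∀ r > 0, bm ν y r ≤ Θ * r ^ 2) :
    (∀ n, IntegrableOn (fun y => |a y| * ∫ x, ks (sn n) (y - x.1) ∂ν) S) ∧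
      Tendsto (fun n => ∫ y in S, |a y| * ∫ x, ks (sn n) (y - x.1) ∂ν) atTop (𝓝 0) := by
  constructor
  · intro n
    obtain ⟨B, hB⟩ := aks_bd_Null ha (sn_pos n)
    exact (swap_Null ν (continuous_abs.comp_aestronglyMeasurable ha.1) (fun y => abs_nonneg _)
      (sn_pos n) hB).2.1.integrableOn
  obtain ⟨C, hC, h⟩ := ks_int_Null
  obtain ⟨C', hC', h'⟩ := dy_tail (X := E × E) 5 2 (by norm_num)
  have h0 : ∀ n (y : E), 0 ≤ ∫ x, ks (sn n) (y - x.1) ∂ν := fun n y =>
    integral_nonneg fun x => ks_nonneg (sn_pos n) _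
  have h1 : ∀ n, Integrable (fun y : E => ∫ x, ks (sn n) (y - x.1) ∂ν) ∧
      ∫ y in S, ∫ x, ks (sn n) (y - x.1) ∂ν ≤ C * sn n * ν.real univ := fun n => by
    have := swap_Null ν (b := fun _ => 1) aestronglyMeasurable_const (fun _ => zero_le_one)
      (sn_pos n) (B := C * sn n) fun x => by simpa only [one_mul] using h x _ (sn_pos n)
    simp only [one_mul] at this
    exact ⟨this.2.1, (setIntegral_le_integral this.2.1 (ae_of_all _ (h0 n))).trans this.2.2.2⟩
  have h2 : ∀ n, ∀ y ∈ S, (∫ x, ks (sn n) (y - x.1) ∂ν) ^ 2 ≤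
      C' * |Θ| / sn n * ∫ x, ks (sn n) (y - x.1) ∂ν := fun n y hy => by
    rw [sq]
    refine mul_le_mul_of_nonneg_right ?_ (h0 n y)
    have hs := sn_pos n
    have := h' ν (fun x => ‖x.1 - y‖) (continuous_fst.sub continuous_const).norm.measurable
      (fun x => norm_nonneg _) |Θ| (sn n) hs fun r hr => by
        rw [bm_eq]
        exact (hg y hy r (hs.trans_le hr)).trans
          (mul_le_mul_of_nonneg_right (le_abs_self _) (sq_nonneg _))
    simp only [ks_eq_Null, norm_sub_rev y]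
    rw [integral_const_mul]
    refine (mul_le_mul_of_nonneg_left this (sq_nonneg _)).trans (le_of_eq ?_)
    field_simp
  have h3 : ∀ n, IntegrableOn (fun y : E => (∫ x, ks (sn n) (y - x.1) ∂ν) ^ 2) S := fun n => by
    refine ((h1 n).1.integrableOn.const_mul (C' * |Θ| / sn n)).mono'
      ((h1 n).1.integrableOn.1.pow 2) ((ae_restrict_mem hS).mono fun y hy => ?_)
    rw [Real.norm_of_nonneg (sq_nonneg _)]
    exact h2 n y hy
  refine weak_null (volume.restrict S) (ha.restrict S) (fun n => (h1 n).1.integrableOn.1) h0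
    (fun n => (h1 n).1.integrableOn) h3 (C := C' * |Θ| * (C * ν.real univ)) (fun n => ?_) ?_
  · have hs := sn_pos n
    refine (setIntegral_mono_on (h3 n) ((h1 n).1.integrableOn.const_mul _) hS (h2 n)).trans ?_
    rw [integral_const_mul]
    refine (mul_le_mul_of_nonneg_left (h1 n).2 (by positivity)).trans (le_of_eq ?_)
    field_simp
  · refine squeeze_zero (fun n => integral_nonneg (h0 n)) (fun n => (h1 n).2) ?_
    simpa using (sn_lim.const_mul C).mul_const (ν.real univ)

end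

end Vale.Agent.P204
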