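import Vale.Agent.P204.L.DPt
import Vale.Agent.P204.L.Null
import Vale.Agent.P204.L.Dbl

/-!
P204 L/Mid: the derivative of `Lam` along the complex lines of the current.
Plan: `dlam`: `fderiv_lam`, `H.cl (tst x s v)` (`tst_supp`), so
`D Lam v = ∫ (dlamI + lin (d1 tst)) + ∫ a (d1 tst)`; `tst_lin` a.e. (`D.supp`), `int_cont`,
`tst_norm`, `aks_int` for `fun y => ‖a y‖` (`H.ha.norm`), `norm_integral_le_of_norm_le`.
`mid`: `E n` the integral of `es`, `ε n = √(E n) + sn n`; apply `dlam` to `v = x.2` and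
`v = J x.1 x.2` (`fI` is the same by `Herm.Del_J`, norms `≤ C`, `C²`);
`ρ n x = 4 / ε n * ∫ eI + 4 ε n ∫ fI + K (sn n ^ 2 + ∫ |‖a‖| ks)`; `E n / ε n ≤ √(E n)`, `dbl`,
`ks_swap`, `ks_null` with `ν = μ2`, `S = univ` (`μ2_growth`).
-/

namespace Vale.Agent.P204

open scoped ContDiff Topology
open Metric MeasureTheory Set Filter

noncomputable section

variable {D : Loc} {a : E → Bil →L[ℝ] ℝ}

theorem le_Mid (f : Bil →L[ℝ] ℝ) {b : Bil} {c : ℝ} (h : ‖b‖ ≤ c) : ‖f b‖ ≤ ‖f‖ * c :=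
  (f.le_opNorm b).trans (mul_le_mul_of_nonneg_left h (norm_nonneg _))

theorem Loc.Hyp.dlam (H : D.Hyp a) : ∃ K ≥ 0, ∀ x ∈ closedBall (0 : E) 2, ∀ s ∈ Ioc (0 : ℝ) 1,
    ∀ v : E, ∀ ε > 0, |fderiv ℝ (D.Lam s) x v| ≤
      2 / ε * ∫ y, D.eI s x y ∂D.μ + 2 * ε * ∫ y, D.fI s x v y ∂D.μ +
        K * ‖v‖ * (D.Lam s x + s ^ 2 + ∫ y, |‖a y‖| * ks s (y - x)) := by
  obtain ⟨K1, hK1, h1⟩ := D.tst_lin
  obtain ⟨K2, hK2, h2⟩ := D.tst_norm
  have hm : 0 ≤ D.μ.real univ := measureReal_nonneg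
  refine ⟨K1 * (1 + D.μ.real univ) + K2, by positivity, fun x hx s hs v ε hε => ?_⟩
  have hx3 : x ∈ closedBall (0 : E) 3 := closedBall_subset_closedBall (by norm_num) hx
  have hx3' : x ∈ ball (0 : E) 3 := closedBall_subset_ball (by norm_num) hx
  have ht := D.tst_supp hx3 hs.1 v
  have hcl := H.cl _ ht
  have i1 := D.int_cont (D.dlamI_cont hx3 hs.1 v)
  have i2 := D.int_cont (D.lin_cont ht.d1.1.1.continuous)
  have i3 := D.int_cont (D.eI_cont hx3 hs.1)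
  have i4 := D.int_cont (D.fI_cont hx3 hs.1 v)
  have i5 := D.int_cont (D.lamI_cont hx3 hs.1)
  have i6 := aks_int H.ha.norm hs.1 x
  have e1 : fderiv ℝ (D.Lam s) x v =
      ∫ y, (D.dlamI s x v y + D.lin (d1 (D.tst x s v)) y) ∂D.μ +
        ∫ y, a y (d1 (D.tst x s v) y) := by
    rw [D.fderiv_lam hs.1 hx3', integral_add i1 i2]
    linarith
  have j1 : Integrable (fun y => D.lamI s x y + s ^ 2) D.μ := i5.add (integrable_const _)
  have j2 : Integrable (fun y => 2 / ε * D.eI s x y + 2 * ε * D.fI s x v y) D.μ :=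
    (i3.const_mul _).add (i4.const_mul _)
  have j3 : Integrable (fun y => 2 / ε * D.eI s x y + 2 * ε * D.fI s x v y +
      K1 * ‖v‖ * (D.lamI s x y + s ^ 2)) D.μ := j2.add (j1.const_mul _)
  have b1 : ‖∫ y, (D.dlamI s x v y + D.lin (d1 (D.tst x s v)) y) ∂D.μ‖ ≤
      ∫ y, (2 / ε * D.eI s x y + 2 * ε * D.fI s x v y +
        K1 * ‖v‖ * (D.lamI s x y + s ^ 2)) ∂D.μ := by
    refine norm_integral_le_of_norm_le j3 ?_
    filter_upwards [D.supp] with y hy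
    exact h1 x hx s hs v y hy.2.1 hy.2.2 ε hε
  rw [integral_add j2 (j1.const_mul _), integral_add (i3.const_mul _) (i4.const_mul _),
    integral_const_mul, integral_const_mul, integral_const_mul,
    integral_add i5 (integrable_const _), integral_const, smul_eq_mul, Real.norm_eq_abs] at b1
  have b2 : ‖∫ y, a y (d1 (D.tst x s v) y)‖ ≤ ∫ y, K2 * ‖v‖ * (|‖a y‖| * ks s (y - x)) := by
    refine norm_integral_le_of_norm_le (i6.const_mul _) (Eventually.of_forall fun y => ?_)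
    have h3 := le_Mid (a y) (h2 x hx s hs v y)
    rw [abs_norm]
    linarith
  rw [integral_const_mul, Real.norm_eq_abs] at b2
  have p1 := D.Lam_nonneg hx3 s
  have p2 : 0 ≤ ∫ y, |‖a y‖| * ks s (y - x) :=
    integral_nonneg fun y => mul_nonneg (abs_nonneg _) (ks_nonneg hs.1 _)
  have p3 := norm_nonneg v
  have p4 := sq_nonneg s
  rw [e1]
  refine (abs_add_le _ _).trans ((add_le_add b1 b2).trans ?_)
  change _ + K1 * ‖v‖ * (D.Lam s x + _) + _ ≤ _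
  set I := ∫ y, |‖a y‖| * ks s (y - x)
  set m := D.μ.real univ
  set L := D.Lam s x
  have q1 : 0 ≤ K1 * ‖v‖ * (s ^ 2 + I + m * L + m * I) := by positivity
  have q2 : 0 ≤ K2 * ‖v‖ * (L + s ^ 2) := by positivity
  nlinarith

theorem Loc.Hyp.mid (H : D.Hyp a) : ∃ K ≥ 0, ∃ ρ : ℕ → E × E → ℝ, (∀ n, Integrable (ρ n) D.μ2) ∧
    Tendsto (fun n => ∫ x, ρ n x ∂D.μ2) atTop (𝓝 0) ∧ ∀ n, ∀ᵐ x ∂D.μ2, 0 ≤ ρ n x ∧
      |fderiv ℝ (D.Lam (sn n)) x.1 x.2| + |fderiv ℝ (D.Lam (sn n)) x.1 (D.J x.1 x.2)| ≤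
        K * D.Lam (sn n) x.1 + ρ n x := by
  obtain ⟨K0, hK0, h0⟩ := H.dlam
  obtain ⟨K1, h1⟩ := H.dbl
  obtain ⟨iE, hE⟩ := H.es
  obtain ⟨Θ, hΘ, hgr⟩ := H.gr
  have hC : 0 ≤ D.C := (norm_nonneg _).trans (D.herm 0 (mem_closedBall_self (by norm_num))).gle
  set K := K0 * (D.C + D.C * D.C) with hK
  have hK' : 0 ≤ K := by positivity
  set En : ℕ → ℝ := fun n => ∫ x, (∫ y, D.eI (sn n) x.1 y ∂D.μ) ∂D.μ2 with hEn
  set Fn : ℕ → ℝ := fun n => ∫ x, (∫ y, D.fI (sn n) x.1 x.2 y ∂D.μ) ∂D.μ2 with hFn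
  set ε : ℕ → ℝ := fun n => √(En n) + sn n with hε
  have ε0 : ∀ n, 0 < ε n := fun n => add_pos_of_nonneg_of_pos (Real.sqrt_nonneg _) (sn_pos n)
  have s3 : closedBall (0 : E) 2 ⊆ closedBall 0 3 := closedBall_subset_closedBall (by norm_num)
  have E0 : ∀ n, 0 ≤ En n := fun n => integral_nonneg_of_ae (by
    filter_upwards [D.ae_μ2] with x hx
    exact integral_nonneg (D.eI_nonneg (s3 hx.1) _))
  have F0 : ∀ n, 0 ≤ Fn n := fun n => integral_nonneg_of_ae (by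
    filter_upwards [D.ae_μ2] with x hx
    exact integral_nonneg (D.fI_nonneg (s3 hx.1) _ _))
  have hsq : Tendsto (fun n => √(En n)) atTop (𝓝 0) := by
    simpa using hE.sqrt
  have εlim : Tendsto ε atTop (𝓝 0) := by simpa using hsq.add sn_lim
  have l1 : Tendsto (fun n => 4 / ε n * En n) atTop (𝓝 0) := by
    refine squeeze_zero (fun n => mul_nonneg (div_pos four_pos (ε0 n)).le (E0 n)) (fun n => ?_)
      (by simpa using hsq.const_mul 4)
    rw [div_mul_eq_mul_div, div_le_iff₀ (ε0 n)]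
    have e1 := Real.mul_self_sqrt (E0 n)
    have e2 := mul_nonneg (Real.sqrt_nonneg (En n)) (sn_pos n).le
    simp only [hε]
    nlinarith
  have l2 : Tendsto (fun n => 4 * ε n * Fn n) atTop (𝓝 0) := by
    refine squeeze_zero (fun n => mul_nonneg (by have := ε0 n; positivity) (F0 n))
      (fun n => mul_le_mul_of_nonneg_left (h1 _ (sn_pos n)).2 (by have := ε0 n; positivity)) ?_
    simpa using (εlim.const_mul 4).mul_const K1
  have l3 := (ks_null D.μ2 H.ha.norm MeasurableSet.univ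
    (fun y _ r hr => D.μ2_growth hΘ hgr y r hr)).2
  simp only [Measure.restrict_univ] at l3
  have l4 : Tendsto (fun n => D.μ2.real univ * sn n ^ 2) atTop (𝓝 0) := by
    simpa using (sn_lim.pow 2).const_mul (D.μ2.real univ)
  have j1 : ∀ n, Integrable (fun x : E × E => 4 / ε n * ∫ y, D.eI (sn n) x.1 y ∂D.μ +
      4 * ε n * ∫ y, D.fI (sn n) x.1 x.2 y ∂D.μ) D.μ2 := fun n =>
    ((iE n).const_mul _).add ((h1 _ (sn_pos n)).1.const_mul _)
  have j2 : ∀ n, Integrable (fun x : E × E => sn n ^ 2 + ∫ y, |‖a y‖| * ks (sn n) (y - x.1))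
      D.μ2 := fun n => (integrable_const _).add (ks_swap D.μ2 H.ha.norm (sn_pos n)).1
  refine ⟨K, hK', fun n x => 4 / ε n * ∫ y, D.eI (sn n) x.1 y ∂D.μ +
      4 * ε n * ∫ y, D.fI (sn n) x.1 x.2 y ∂D.μ +
      K * (sn n ^ 2 + ∫ y, |‖a y‖| * ks (sn n) (y - x.1)),
    fun n => (j1 n).add ((j2 n).const_mul _), ?_, fun n => ?_⟩
  · have l5 := (l1.add l2).add ((l4.add l3).const_mul K)
    simp only [add_zero, mul_zero] at l5
    refine l5.congr fun n => ?_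
    rw [integral_add (j1 n) ((j2 n).const_mul _),
      integral_add ((iE n).const_mul _) ((h1 _ (sn_pos n)).1.const_mul _),
      integral_const_mul, integral_const_mul, integral_const_mul,
      integral_add (integrable_const _) (ks_swap D.μ2 H.ha.norm (sn_pos n)).1,
      (ks_swap D.μ2 H.ha.norm (sn_pos n)).2, integral_const, smul_eq_mul]
  · filter_upwards [D.ae_μ2] with x hx
    have hh := D.herm x.1 (s3 hx.1)
    have p1 := D.Lam_nonneg (s3 hx.1) (sn n)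
    have p2 : 0 ≤ ∫ y, |‖a y‖| * ks (sn n) (y - x.1) :=
      integral_nonneg fun y => mul_nonneg (abs_nonneg _) (ks_nonneg (sn_pos n) _)
    have p3 : 0 ≤ ∫ y, D.eI (sn n) x.1 y ∂D.μ := integral_nonneg (D.eI_nonneg (s3 hx.1) _)
    have p4 : 0 ≤ ∫ y, D.fI (sn n) x.1 x.2 y ∂D.μ := integral_nonneg (D.fI_nonneg (s3 hx.1) _ _)
    have p5 := ε0 n
    refine ⟨add_nonneg (add_nonneg (mul_nonneg (div_pos four_pos p5).le p3)
      (mul_nonneg (mul_pos four_pos p5).le p4))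
      (mul_nonneg hK' (add_nonneg (sq_nonneg _) p2)), ?_⟩
    have a1 := h0 x.1 hx.1 _ (sn_mem n) x.2 _ p5
    have a2 := h0 x.1 hx.1 _ (sn_mem n) (D.J x.1 x.2) _ p5
    have e1 : D.fI (sn n) x.1 (D.J x.1 x.2) = D.fI (sn n) x.1 x.2 := by
      funext y
      unfold Loc.fI
      rw [hh.Del_J]
    rw [e1] at a2
    have n1 : ‖D.J x.1 x.2‖ ≤ D.C * D.C :=
      ((D.J x.1).le_opNorm x.2).trans (mul_le_mul hh.Jle hx.2.2 (norm_nonneg _) hC)
    set T := D.Lam (sn n) x.1 + sn n ^ 2 + ∫ y, |‖a y‖| * ks (sn n) (y - x.1) with hT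
    have T0 : 0 ≤ T := add_nonneg (add_nonneg p1 (sq_nonneg _)) p2
    have b1 : K0 * ‖x.2‖ * T ≤ K0 * D.C * T :=
      mul_le_mul_of_nonneg_right (mul_le_mul_of_nonneg_left hx.2.2 hK0) T0
    have b2 : K0 * ‖D.J x.1 x.2‖ * T ≤ K0 * (D.C * D.C) * T :=
      mul_le_mul_of_nonneg_right (mul_le_mul_of_nonneg_left n1 hK0) T0
    have e2 : K * D.Lam (sn n) x.1 + (4 / ε n * ∫ y, D.eI (sn n) x.1 y ∂D.μ +
        4 * ε n * ∫ y, D.fI (sn n) x.1 x.2 y ∂D.μ +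
        K * (sn n ^ 2 + ∫ y, |‖a y‖| * ks (sn n) (y - x.1))) =
        2 * (2 / ε n * ∫ y, D.eI (sn n) x.1 y ∂D.μ) +
          2 * (2 * ε n * ∫ y, D.fI (sn n) x.1 x.2 y ∂D.μ) +
          (K0 * D.C * T + K0 * (D.C * D.C) * T) := by
      rw [hK, hT]
      ring
    rw [e2]
    linarith

end

end Vale.Agent.P204
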