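import Vale.Agent.P204.L.Th

/-!
P204 L/Nf: the exterior derivative of `- cf • η ∘ J`.
Plan: let `M p : Cov →L Cov := -(cf p) • (compL ℝ E E ℝ).flip (J p)` (`Supp (5/2) M` by
`Supp.smul_on`), the form is `M p (η p)`, `fderiv_clm_apply`. Take
`N p θ = b - b.flip` with `b = (fderiv M p).flip θ`, i.e. `N p = Alt.comp (fderiv M p).flip`,
`Alt = id - flipₗᵢ`; it is a continuous linear image of `fderiv M p` (`Supp.fderiv`,
`ContinuousLinearMap.flipₗᵢ`, `ContDiff.clm_comp`). `exists_N2`: `N' p = (pm (J p)).comp (N p)`; the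
main part is `J y`-invariant because `fderiv th` is symmetric (`Herm.fderiv_th`, `symm`) and
`J y ^ 2 = -1` when `cf y ≠ 0` (`cf_ne`, `D.herm`).
-/

namespace Vale.Agent.P204

open scoped ContDiff Topology
open Metric MeasureTheory Set Filter

noncomputable section

set_option maxSynthPendingDepth 3

instance iCC_Nf : NormedAddCommGroup (Cov →L[ℝ] Cov) := inferInstance
instance iCCS_Nf : NormedSpace ℝ (Cov →L[ℝ] Cov) := inferInstance

def M_Nf (D : Loc) (p : E) : Cov →L[ℝ] Cov :=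
  (-(cf p)) • (ContinuousLinearMap.compL ℝ E E ℝ).flip (D.J p)

theorem M_apply_Nf (D : Loc) (p : E) (θ : Cov) : M_Nf D p θ = -(cf p) • θ.comp (D.J p) := by
  simp [M_Nf]

theorem M_supp_Nf (D : Loc) : Supp (5 / 2) (M_Nf D) := by
  refine ⟨cf_spec.1.1.neg.smul
    ((ContinuousLinearMap.compL ℝ E E ℝ).flip.contDiff.comp D.J_smooth), fun p hp => ?_⟩
  simp [M_Nf, cf_spec.1.2 p hp]

def alt_Nf : Bil →L[ℝ] Bil := ContinuousLinearMap.id ℝ Bil -
  (ContinuousLinearMap.flipₗᵢ ℝ E E ℝ).toContinuousLinearEquiv.toContinuousLinearMap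

theorem alt_apply_Nf (b : Bil) (u v : E) : alt_Nf b u v = b u v - b v u := by
  simp [alt_Nf]

def fl_Nf : (E →L[ℝ] Cov →L[ℝ] Cov) →L[ℝ] (Cov →L[ℝ] Bil) :=
  (ContinuousLinearMap.flipₗᵢ ℝ E Cov Cov).toContinuousLinearEquiv.toContinuousLinearMap

theorem fl_apply_Nf (A : E →L[ℝ] Cov →L[ℝ] Cov) (θ : Cov) (u : E) : fl_Nf A θ u = A u θ := by
  simp [fl_Nf]

theorem Loc.exists_N (D : Loc) : ∃ N : E → Cov →L[ℝ] Bil, Supp (5 / 2) N ∧
    ∀ (η : E → Cov) (y : E), DifferentiableAt ℝ η y → ∀ u v,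
      d1 (fun p => -(cf p) • (η p).comp (D.J p)) y u v =
        cf y * (fderiv ℝ η y v (D.J y u) - fderiv ℝ η y u (D.J y v)) + N y (η y) u v := by
  have hM := M_supp_Nf D
  have hM' := hM.fderiv
  refine ⟨fun p => alt_Nf.comp (fl_Nf (fderiv ℝ (M_Nf D) p)),
    ⟨contDiff_const.clm_comp (fl_Nf.contDiff.comp hM'.1), fun p hp => ?_⟩,
    fun η y hη u v => ?_⟩
  · simp only [hM'.2 p hp, map_zero, ContinuousLinearMap.comp_zero]
  · have e1 : (fun p => -(cf p) • (η p).comp (D.J p)) = fun p => M_Nf D p (η p) := by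
      funext p; rw [M_apply_Nf]
    have hd : DifferentiableAt ℝ (M_Nf D) y := (hM.1.differentiable (by simp)) y
    rw [e1, d1_apply, fderiv_clm_apply hd hη]
    simp only [add_apply, ContinuousLinearMap.comp_apply, ContinuousLinearMap.flip_apply,
      alt_apply_Nf, fl_apply_Nf, M_apply_Nf, smul_apply, smul_eq_mul]
    ring

theorem Loc.gam_supp (D : Loc) {x : E} (hx : x ∈ closedBall (0 : E) 3) {s : ℝ} (hs : 0 < s) :
    Supp (5 / 2) (D.gam x s) := by
  have e1 : D.gam x s = fun p => M_Nf D p (th (D.g x) x s p) := by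
    funext p; rw [M_apply_Nf]; rfl
  rw [e1]
  refine ⟨(M_supp_Nf D).1.clm_apply ((D.herm x hx).contDiff_th x hs), fun p hp => ?_⟩
  simp only [(M_supp_Nf D).2 p hp, zero_apply]

theorem Loc.exists_N2 (D : Loc) : ∃ N : E → Cov →L[ℝ] Bil, Supp (5 / 2) N ∧
    ∀ x ∈ closedBall (0 : E) 3, ∀ s > 0, ∀ y,
      pm (D.J y) (d1 (D.gam x s) y) = N y (th (D.g x) x s y) := by
  obtain ⟨N, hN, h⟩ := D.exists_N
  refine ⟨fun p => (pm (D.J p)).comp (N p),
    ⟨(contDiff_pm.comp D.J_smooth).clm_comp hN.1, fun p hp => ?_⟩, fun x hx s hs y => ?_⟩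
  · simp only [hN.2 p hp, ContinuousLinearMap.comp_zero]
  · have hH := D.herm x hx
    have hd : DifferentiableAt ℝ (th (D.g x) x s) y :=
      ((hH.contDiff_th x hs).differentiable (by simp)) y
    have h1 : ∀ u v, d1 (D.gam x s) y u v = _ := h (th (D.g x) x s) y hd
    ext u v
    simp only [pm_apply, ContinuousLinearMap.comp_apply, h1]
    by_cases hc : cf y = 0
    · rw [hc]; ring
    · have hy : y ∈ closedBall (0 : E) 3 := by
        rw [mem_closedBall_zero_iff]; linarith [cf_ne hc]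
      have hsq := (D.herm y hy).sq
      simp only [hH.fderiv_th x y hs, hsq, map_neg]
      rw [hH.symm (D.J y v) u, hH.symm (D.J y u) v]
      ring

end

end Vale.Agent.P204
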