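import Vale.Agent.P204.L.Mid

/-!
P204 L/Test: testing closedness with `G (Lam s) • γ`.
Plan: `β p = G (Lam s p) • γ p` is `Supp 1` (`supp_of_contDiffOn` on `ball 0 3`, `lam_smooth`,
`Lam_nonneg`, `ContDiffAt.comp`), `d1 β p = G • d1 γ p + wedge1 (G' • fderiv Lam p) (γ p)` on
`ball 0 3` (`d1_smul`, `HasDerivAt.comp_hasFDerivAt`). `test_a`: `d1 β` vanishes off `closedBall 0 1`
and `‖d1 β y‖ ≤ K L ∫ ks` on it (`lam_crude`, `jb_supp`, `norm_wedge1_le`), `ks_null` with `ν = μ`,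
`S = closedBall 0 1`. `test`: the integral of `lin (d1 β)` against `μ` equals that against `μ2`
(`setIntegral_eq_integral_of_forall_compl_eq_zero`); the wedge term is bounded by
`M |G'| (K Lam + ρ n) ≤ M K δ + M L ρ n` (`mid`); `int_μ2` for integrability.
-/

namespace Vale.Agent.P204

open scoped ContDiff Topology
open Metric MeasureTheory Set Filter

noncomputable section

variable {D : Loc} {a : E → Bil →L[ℝ] ℝ} {γ : E → Cov}

/-- admissible truncations -/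
def Tr (G G' : ℝ → ℝ) (L δ : ℝ) : Prop := ∀ t ≥ 0, ContDiffAt ℝ ∞ G t ∧ HasDerivAt G (G' t) t ∧
  |G t| ≤ L * t ∧ |G' t| ≤ L ∧ |G' t| * t ≤ δ

theorem at_Test (D : Loc) {s : ℝ} (hs : 0 < s) {y : E} (hy : y ∈ ball (0 : E) 3) :
    ContDiffAt ℝ ∞ (D.Lam s) y := (D.lam_smooth hs).contDiffAt (isOpen_ball.mem_nhds hy)

theorem gl_Test (D : Loc) {G G' : ℝ → ℝ} {L δ : ℝ} (hG : Tr G G' L δ) {s : ℝ} (hs : 0 < s) {y : E}
    (hy : y ∈ ball (0 : E) 3) : ContDiffAt ℝ ∞ (fun p => G (D.Lam s p)) y :=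
  (hG _ (D.Lam_nonneg (ball_subset_closedBall hy) s)).1.comp y (at_Test D hs hy)

theorem bd_Test (hγ : Supp 1 γ) : ∃ M ≥ 0, ∀ p, ‖γ p‖ ≤ M ∧ ‖d1 γ p‖ ≤ M := by
  obtain ⟨M, hM⟩ := hγ.1.continuous.bounded_above_of_compact_support hγ.hasCompactSupport
  obtain ⟨M', hM'⟩ := hγ.d1.1.1.continuous.bounded_above_of_compact_support
    hγ.d1.1.hasCompactSupport
  exact ⟨max M M', le_max_of_le_left ((norm_nonneg _).trans (hM 0)),
    fun p => ⟨le_max_of_le_left (hM p), le_max_of_le_right (hM' p)⟩⟩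

theorem Loc.tr_supp (D : Loc) {G G' : ℝ → ℝ} {L δ : ℝ} (hG : Tr G G' L δ) (hγ : Supp 1 γ) {s : ℝ}
    (hs : 0 < s) : Supp 1 fun p => G (D.Lam s p) • γ p :=
  supp_of_contDiffOn isOpen_ball
    (fun _ hp => ((gl_Test D hG hs hp).smul hγ.1.contDiffAt).contDiffWithinAt)
    (closedBall_subset_ball (by norm_num)) fun p hp => by rw [hγ.2 p hp, smul_zero]

theorem Loc.d1_tr (D : Loc) {G G' : ℝ → ℝ} {L δ : ℝ} (hG : Tr G G' L δ) (hγ : Supp 1 γ) {s : ℝ}
    (hs : 0 < s) {y : E} (hy : y ∈ ball (0 : E) 3) : d1 (fun p => G (D.Lam s p) • γ p) y =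
      G (D.Lam s y) • d1 γ y + wedge1 (G' (D.Lam s y) • fderiv ℝ (D.Lam s) y) (γ y) := by
  have h := (hG _ (D.Lam_nonneg (ball_subset_closedBall hy) s)).2.1.comp_hasFDerivAt y
    ((at_Test D hs hy).differentiableAt (by simp)).hasFDerivAt
  exact (d1_smul h.differentiableAt (hγ.1.differentiable (by simp) y)).trans (by rw [h.fderiv]; rfl)

theorem Loc.Hyp.test_a (H : D.Hyp a) {G G' : ℝ → ℝ} {L δ : ℝ} (hG : Tr G G' L δ) (hγ : Supp 1 γ) :
    Tendsto (fun n => ∫ y, a y (d1 (fun p => G (D.Lam (sn n) p) • γ p) y)) atTop (𝓝 0) := by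
  obtain ⟨M, hM0, hM⟩ := bd_Test hγ
  obtain ⟨K, -, hK⟩ := D.lam_crude
  obtain ⟨Θ, -, hΘ⟩ := H.gr
  have c2 : closedBall (0 : E) 1 ⊆ closedBall 0 2 := closedBall_subset_closedBall one_le_two
  obtain ⟨h1, h2⟩ := ks_null D.μ H.ha.norm measurableSet_closedBall fun y hy => hΘ y (c2 hy)
  have hL : 0 ≤ L := (abs_nonneg _).trans (hG 0 le_rfl).2.2.2.1
  refine squeeze_zero_norm (fun n => ?_)
    (by simpa only [mul_zero] using h2.const_mul (3 * L * M * K))
  rw [← setIntegral_eq_integral_of_forall_compl_eq_zero (s := closedBall 0 1) fun y hy => by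
    rw [(D.tr_supp hG hγ (sn_pos n)).d1.1.2 y hy, map_zero], ← integral_const_mul]
  refine norm_integral_le_of_norm_le ((h1 n).const_mul _)
    (ae_restrict_of_forall_mem measurableSet_closedBall fun y hy => ?_)
  have h3 : y ∈ ball (0 : E) 3 := closedBall_subset_ball (by norm_num) hy
  obtain ⟨-, -, g1, g2, -⟩ := hG _ (D.Lam_nonneg (ball_subset_closedBall h3) (sn n))
  obtain ⟨k1, k2⟩ := hK y (c2 hy) _ (sn_mem n)
  have k0 := (norm_nonneg _).trans k2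
  rw [D.d1_tr hG hγ (sn_pos n) h3, abs_norm, mul_left_comm]
  refine (a y).le_of_opNorm_le_of_le le_rfl ((norm_add_le_of_le ((norm_smul_le _ _).trans
    (mul_le_mul (g1.trans (mul_le_mul_of_nonneg_left k1 hL)) (hM y).2 (norm_nonneg _)
      (mul_nonneg hL k0))) ((norm_wedge1_le _ _).trans (mul_le_mul (mul_le_mul_of_nonneg_left
        ((norm_smul_le _ _).trans (mul_le_mul g2 k2 (norm_nonneg _) hL)) zero_le_two) (hM y).1
        (norm_nonneg _) (mul_nonneg zero_le_two (mul_nonneg hL k0))))).trans_eq (by ring))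

theorem Loc.Hyp.test (H : D.Hyp a) (hγ : Supp 1 γ) : ∃ K, ∀ (G G' : ℝ → ℝ) (L δ : ℝ),
    Tr G G' L δ → ∃ ρ : ℕ → ℝ, Tendsto ρ atTop (𝓝 0) ∧
      ∀ n, |∫ x, G (D.Lam (sn n) x.1) * D.lin (d1 γ) x ∂D.μ2| ≤ K * δ + ρ n := by
  obtain ⟨M, hM0, hM⟩ := bd_Test hγ
  obtain ⟨K, hK0, ρ, r1, r2, r3⟩ := H.mid
  have hC := (D.herm 0 (by simp)).C_nonneg
  have hM' : 0 ≤ M * (D.C * D.C + D.C) := by positivity
  refine ⟨M * (D.C * D.C + D.C) * K * D.μ2.real univ, fun G G' L δ hG => ⟨fun n =>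
    |∫ y, a y (d1 (fun p => G (D.Lam (sn n) p) • γ p) y)| +
      M * (D.C * D.C + D.C) * L * ∫ x, ρ n x ∂D.μ2, ?_, fun n => ?_⟩⟩
  · simpa only [abs_zero, mul_zero, add_zero] using (H.test_a hG hγ).abs.add (r2.const_mul _)
  have hβ := D.tr_supp hG hγ (sn_pos n)
  have i1 := D.int_μ2 (D.lin_cont hβ.d1.1.1.continuous).continuousOn
  have i2 := D.int_μ2 (f := fun x => G (D.Lam (sn n) x.1) * D.lin (d1 γ) x) fun x hx =>
    (((gl_Test D hG (sn_pos n) hx.1).continuousAt.comp continuousAt_fst).mul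
      (D.lin_cont hγ.d1.1.1.continuous).continuousAt).continuousWithinAt
  have e : ∫ x, D.lin (d1 fun p => G (D.Lam (sn n) p) • γ p) x ∂D.μ2 =
      -∫ y, a y (d1 (fun p => G (D.Lam (sn n) p) • γ p) y) := by
    rw [← eq_neg_of_add_eq_zero_left (H.cl _ (hβ.mono (by norm_num)))]
    refine setIntegral_eq_integral_of_forall_compl_eq_zero fun y hy => ?_
    rw [Loc.lin, hβ.d1.1.2 y.1 fun h => hy (closedBall_subset_closedBall one_le_two h)]
    rfl
  have h := norm_integral_le_of_norm_le ((integrable_const (M * (D.C * D.C + D.C) * K * δ)).add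
    ((r1 n).const_mul (M * (D.C * D.C + D.C) * L))) (f := fun x =>
      D.lin (d1 fun p => G (D.Lam (sn n) p) • γ p) x - G (D.Lam (sn n) x.1) * D.lin (d1 γ) x) (by
    filter_upwards [r3 n, D.ae_μ2] with x h1 h2
    have h3 : x.1 ∈ ball (0 : E) 3 := closedBall_subset_ball (by norm_num) h2.1
    obtain ⟨-, -, -, g2, g3⟩ := hG _ (D.Lam_nonneg (ball_subset_closedBall h3) (sn n))
    have u1 : |γ x.1 x.2| ≤ M * D.C := (γ x.1).le_of_opNorm_le_of_le (hM _).1 h2.2.2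
    have u2 : |γ x.1 (D.J x.1 x.2)| ≤ M * (D.C * D.C) := (γ x.1).le_of_opNorm_le_of_le (hM _).1
      ((D.J x.1).le_of_opNorm_le_of_le (D.herm _ (ball_subset_closedBall h3)).Jle h2.2.2)
    simp only [Loc.lin, D.d1_tr hG hγ (sn_pos n) h3, add_apply, smul_apply, smul_eq_mul,
      wedge1_apply, add_sub_cancel_left, Real.norm_eq_abs, Pi.add_apply]
    refine (abs_sub _ _).trans ?_
    simp only [abs_mul]
    have g0 := abs_nonneg (G' (D.Lam (sn n) x.1))
    have a1 := mul_nonneg g0 (abs_nonneg (fderiv ℝ (D.Lam (sn n)) x.1 x.2))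
    have a2 := mul_nonneg g0 (abs_nonneg (fderiv ℝ (D.Lam (sn n)) x.1 (D.J x.1 x.2)))
    linarith [mul_le_mul_of_nonneg_left u2 a1, mul_le_mul_of_nonneg_right u1 a2,
      mul_nonneg (mul_nonneg hM0 hC) a1, mul_nonneg (mul_nonneg hM0 (mul_nonneg hC hC)) a2,
      mul_le_mul_of_nonneg_left h1.2 (mul_nonneg hM' g0),
      mul_le_mul_of_nonneg_left g3 (mul_nonneg hM' hK0),
      mul_le_mul_of_nonneg_left g2 (mul_nonneg hM' h1.1)])
  simp only [Pi.add_apply] at h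
  rw [integral_sub i1 i2, e, integral_add (integrable_const _) ((r1 n).const_mul _),
    integral_const, integral_const_mul, smul_eq_mul, Real.norm_eq_abs, ← neg_add', abs_neg] at h
  linarith [abs_sub_abs_le_abs_add (∫ x, G (D.Lam (sn n) x.1) * D.lin (d1 γ) x ∂D.μ2)
    (∫ y, a y (d1 (fun p => G (D.Lam (sn n) p) • γ p) y)), abs_of_nonneg hC, congrArg abs (add_comm
      (∫ x, G (D.Lam (sn n) x.1) * D.lin (d1 γ) x ∂D.μ2)
      (∫ y, a y (d1 (fun p => G (D.Lam (sn n) p) • γ p) y)))]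

end

end Vale.Agent.P204
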