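import Vale.Agent.P204.L.Defs

/-!
P204 L/Th: the quadratic function `Qf` and the covector field `th`.
Plan: `(a + s) ^ 2 ≤ 2 a ^ 2 + 2 s ^ 2`, `Herm.pos`, `Herm.le_Alg2`, `0 ≤ C` from `gle`.
`HasFDerivAt.clm_apply`, `HasFDerivAt.smul`, `hasFDerivAt_inv`/`HasDerivAt.comp_hasFDerivAt`, `symm`.
`J_lip`: `fderiv J` is continuous, bounded on the compact ball,
`Convex.norm_image_sub_le_of_norm_fderiv_le`. `cf_far`: `cf` is locally constant on `ball 0 (9/4)`
and `Supp.fderiv`.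
-/

namespace Vale.Agent.P204

open scoped ContDiff Topology
open Metric MeasureTheory Set Filter

noncomputable section

variable {B : Bil} {J : End} {c C s : ℝ}

theorem Herm.C_nonneg (h : Herm B J c C) : 0 ≤ C := (norm_nonneg _).trans h.gle

theorem Herm.Qf_lower (h : Herm B J c C) (x y : E) (hs : 0 ≤ s) :
    min c 1 / 2 * (‖y - x‖ + s) ^ 2 ≤ Qf B x s y := by
  have h1 := h.pos (y - x)
  have h2 := mul_le_mul_of_nonneg_right (min_le_left c 1) (sq_nonneg ‖y - x‖)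
  have h3 := mul_le_mul_of_nonneg_right (min_le_right c 1) (sq_nonneg s)
  have h4 := mul_nonneg (lt_min h.cpos one_pos).le (sq_nonneg (‖y - x‖ - s))
  have _ := hs
  unfold Qf
  linarith

theorem Herm.Qf_upper (h : Herm B J c C) (x y : E) (s : ℝ) :
    Qf B x s y ≤ C * ‖y - x‖ ^ 2 + s ^ 2 := add_le_add (h.le_Alg2 _) le_rfl

theorem Herm.Qf_sq (h : Herm B J c C) (x y : E) (s : ℝ) : s ^ 2 ≤ Qf B x s y :=
  le_add_of_nonneg_left (h.nn_Alg2 _)

theorem Herm.Qf_pos (h : Herm B J c C) (x y : E) (hs : 0 < s) : 0 < Qf B x s y :=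
  (pow_pos hs 2).trans_le (h.Qf_sq x y s)

theorem Herm.Qf_pos' (h : Herm B J c C) {x y : E} (hy : y ≠ x) (s : ℝ) : 0 < Qf B x s y :=
  add_pos_of_pos_of_nonneg ((mul_pos h.cpos (pow_pos (norm_pos_iff.2 (sub_ne_zero.2 hy)) 2)).trans_le
    (h.pos _)) (sq_nonneg s)

theorem contDiff_Qf (B : Bil) (x : E) (s : ℝ) : ContDiff ℝ ∞ (Qf B x s) :=
  ((B.contDiff.comp (contDiff_id.sub contDiff_const)).clm_apply
    (contDiff_id.sub contDiff_const)).add contDiff_const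

theorem lin_Th (B : Bil) (x y : E) : HasFDerivAt (fun y => B (y - x)) B y :=
  B.hasFDerivAt.comp y ((hasFDerivAt_id y).sub_const x)

theorem Herm.hasFDerivAt_Qf (h : Herm B J c C) (x y : E) (s : ℝ) :
    HasFDerivAt (Qf B x s) ((2 : ℝ) • B (y - x)) y := by
  refine (((lin_Th B x y).clm_apply ((hasFDerivAt_id y).sub_const x)).add_const
    (s ^ 2)).congr_fderiv (ContinuousLinearMap.ext fun u => ?_)
  simp [h.symm u, two_mul]

theorem Herm.contDiff_th (h : Herm B J c C) (x : E) (hs : 0 < s) : ContDiff ℝ ∞ (th B x s) :=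
  ((contDiff_Qf B x s).inv fun y => (h.Qf_pos x y hs).ne').smul
    (B.contDiff.comp (contDiff_id.sub contDiff_const))

theorem Herm.fderiv_th (h : Herm B J c C) (x y : E) (hs : 0 < s) (u v : E) :
    fderiv ℝ (th B x s) y u v =
      B u v / Qf B x s y - 2 * (B (y - x) u * B (y - x) v) / Qf B x s y ^ 2 := by
  have h0 := (h.Qf_pos x y hs).ne'
  have h1 := ((hasDerivAt_inv h0).comp_hasFDerivAt y (h.hasFDerivAt_Qf x y s)).smul (lin_Th B x y)
  rw [show fderiv ℝ (th B x s) y = _ from h1.fderiv]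
  simp
  ring

theorem Herm.norm_th (h : Herm B J c C) (x y : E) (hs : 0 < s) :
    ‖th B x s y‖ ≤ 2 * C / min c 1 / (‖y - x‖ + s) := by
  have h0 := h.Qf_pos x y hs
  have h1 := h.Qf_lower x y hs.le
  have h2 := lt_min h.cpos one_pos
  have h3 : ‖B (y - x)‖ ≤ C * (‖y - x‖ + s) := (B.le_of_opNorm_le h.gle _).trans
    (mul_le_mul_of_nonneg_left (le_add_of_nonneg_right hs.le) h.C_nonneg)
  rw [th, norm_smul, norm_inv, Real.norm_of_nonneg h0.le, ← div_eq_inv_mul]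
  refine (div_le_div₀ (mul_nonneg h.C_nonneg (by positivity)) h3 (by positivity) h1).trans_eq ?_
  field_simp

theorem Herm.th_contAt (h : Herm B J c C) {x y : E} (hy : y ≠ x) :
    ContinuousAt (fun s => th B x s y) 0 :=
  ((show ContinuousAt (fun s => Qf B x s y) 0 by unfold Qf; fun_prop).inv₀
    (h.Qf_pos' hy 0).ne').smul continuousAt_const

theorem cf_far : ∃ K ≥ 0, ∀ y : E, ‖fderiv ℝ cf y‖ ≤ K ∧
    (fderiv ℝ cf y ≠ 0 → 9 / 4 ≤ ‖y‖ ∧ ‖y‖ ≤ 5 / 2) := by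
  have h := cf_spec.1.fderiv
  obtain ⟨K, hK⟩ := h.1.continuous.bounded_above_of_compact_support h.hasCompactSupport
  refine ⟨K, (norm_nonneg _).trans (hK 0), fun y => ⟨hK y, fun hy => ⟨?_, ?_⟩⟩⟩
  · refine not_lt.1 fun h1 => hy ?_
    have : cf =ᶠ[𝓝 y] fun _ => 1 := by
      filter_upwards [isOpen_ball.mem_nhds (mem_ball_zero_iff.2 h1)] with p hp
      exact cf_spec.2.2.2 p (ball_subset_closedBall hp)
    rw [this.fderiv_eq, fderiv_const_apply]
  · exact mem_closedBall_zero_iff.1 (by_contra fun h1 => hy (h.2 y h1))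

theorem cf_ne {y : E} (h : cf y ≠ 0) : ‖y‖ ≤ 5 / 2 :=
  mem_closedBall_zero_iff.1 (by_contra fun h1 => h (cf_spec.1.2 y h1))

theorem Loc.J_lip (D : Loc) : ∃ L ≥ 0, ∀ x ∈ closedBall (0 : E) 3, ∀ y ∈ closedBall (0 : E) 3,
    ‖D.J y - D.J x‖ ≤ L * ‖y - x‖ := by
  obtain ⟨L, hL⟩ := (isCompact_closedBall (0 : E) 3).exists_bound_of_continuousOn
    (D.J_smooth.continuous_fderiv (by simp)).continuousOn
  exact ⟨L, (norm_nonneg _).trans (hL 0 (by simp)), fun x hx y hy =>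
    (convex_closedBall 0 3).norm_image_sub_le_of_norm_fderiv_le
      (fun p _ => D.J_smooth.differentiable (by simp) p) hL hx hy⟩

theorem Loc.dg_bd (D : Loc) : ∃ L ≥ 0, ∀ x ∈ closedBall (0 : E) 3, ‖fderiv ℝ D.g x‖ ≤ L := by
  obtain ⟨L, hL⟩ := (isCompact_closedBall (0 : E) 3).exists_bound_of_continuousOn
    (D.g_smooth.continuous_fderiv (by simp)).continuousOn
  exact ⟨L, (norm_nonneg _).trans (hL 0 (by simp)), hL⟩

/-- comparison of `Q` with the Euclidean quantity -/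
theorem Loc.Q_lower (D : Loc) : ∃ κ > 0, ∀ x ∈ closedBall (0 : E) 3, ∀ s ≥ 0, ∀ y,
    κ * (‖y - x‖ + s) ^ 2 ≤ D.Q x s y :=
  ⟨min D.c 1 / 2, half_pos (lt_min (D.herm 0 (by simp)).cpos one_pos),
    fun x hx _ hs y => (D.herm x hx).Qf_lower x y hs⟩

end

end Vale.Agent.P204
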