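import Vale.Agent.P204.L.Bas

/-!
P204 L/Tst: the second test form.
Plan: `tst = ψ • ξ` with `ψ = cf s² / Q²`, `ξ` constant; `d1_smul` and `d1` of a constant is zero;
`hasFDerivAt_Qf`. `tst_norm`: `norm_wedge1_le`-like direct bound
(`ContinuousLinearMap.opNorm_le_bound₂` on the formula), `cf_far`, `cf_ne` (`‖z‖ + s ≤ 6` where
`cf` or its derivative is nonzero), `Q_lower`.
-/

namespace Vale.Agent.P204

open scoped ContDiff Topology
open Metric MeasureTheory Set Filter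

noncomputable section

theorem Loc.tst_supp (D : Loc) {x : E} (hx : x ∈ closedBall (0 : E) 3) {s : ℝ} (hs : 0 < s)
    (v : E) : Supp (5 / 2) (D.tst x s v) := by
  refine ⟨?_, fun p hp => ?_⟩
  · exact (cf_spec.1.1.mul (contDiff_const.div ((contDiff_Qf (D.g x) x s).pow 2)
      fun y => pow_ne_zero 2 ((D.herm x hx).Qf_pos x y hs).ne')).smul contDiff_const
  · simp only [Loc.tst, cf_spec.1.2 p hp, zero_mul, zero_smul]

/-- differential of the coefficient of `tst` -/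
def Loc.dps (D : Loc) (x : E) (s : ℝ) (y u : E) : ℝ :=
  fderiv ℝ cf y u * (s ^ 2 / D.Q x s y ^ 2) - 4 * cf y * s ^ 2 * D.g x (y - x) u / D.Q x s y ^ 3

theorem Loc.psi_Tst (D : Loc) {x : E} (hx : x ∈ closedBall (0 : E) 3) {s : ℝ} (hs : 0 < s)
    (y : E) : ∃ L : Cov, HasFDerivAt (fun y => cf y * (s ^ 2 / D.Q x s y ^ 2)) L y ∧
      ∀ u, L u = D.dps x s y u := by
  have h := D.herm x hx
  have h0 : D.Q x s y ≠ 0 := (h.Qf_pos x y hs).ne'
  have h1 : HasDerivAt (fun q : ℝ => s ^ 2 / q ^ 2) (-(2 * s ^ 2) / D.Q x s y ^ 3)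
      (D.Q x s y) := by
    have h2 := (hasDerivAt_const (D.Q x s y) (s ^ 2)).div (hasDerivAt_pow 2 (D.Q x s y))
      (pow_ne_zero 2 h0)
    refine h2.congr_deriv ?_
    simp only [Nat.cast_ofNat, Nat.add_one_sub_one, pow_one]
    field_simp
    ring
  have h3 := h1.comp_hasFDerivAt y (h.hasFDerivAt_Qf x y s)
  have h4 := (cf_spec.1.1.differentiable (by simp) y).hasFDerivAt.mul h3
  refine ⟨_, h4, fun u => ?_⟩
  simp only [Loc.dps, add_apply, smul_apply, smul_eq_mul, Function.comp, Loc.Q]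
  ring

theorem Loc.d1_tst (D : Loc) {x : E} (hx : x ∈ closedBall (0 : E) 3) {s : ℝ} (hs : 0 < s)
    (v y u u' : E) : d1 (D.tst x s v) y u u' =
      D.dps x s y u * D.g x (D.J x v) u' - D.g x (D.J x v) u * D.dps x s y u' := by
  obtain ⟨L, hL, hL'⟩ := D.psi_Tst hx hs y
  have h1 : fderiv ℝ (D.tst x s v) y = L.smulRight (D.g x (D.J x v)) :=
    (hL.smul_const (D.g x (D.J x v))).fderiv
  rw [d1_apply, h1]
  simp only [ContinuousLinearMap.smulRight_apply, smul_apply, smul_eq_mul, hL']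
  ring

theorem Loc.dps_le_Tst (D : Loc) : ∃ A ≥ 0, ∀ x ∈ closedBall (0 : E) 2, ∀ s ∈ Ioc (0 : ℝ) 1,
    ∀ y u : E, |D.dps x s y u| ≤ A * ks s (y - x) * ‖u‖ := by
  obtain ⟨K, hK0, hK⟩ := cf_far
  obtain ⟨κ, hκ, hQ⟩ := D.Q_lower
  have hC : 0 ≤ D.C := (D.herm 0 (by simp)).C_nonneg
  refine ⟨6 * K / κ ^ 2 + 4 * D.C / κ ^ 3, by positivity, fun x hx s hs y u => ?_⟩
  have hx3 : x ∈ closedBall (0 : E) 3 := closedBall_subset_closedBall (by norm_num) hx
  have h := D.herm x hx3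
  have hs0 := hs.1
  have hq := hQ x hx3 s hs0.le y
  set r := ‖y - x‖ + s with hr
  have hr0 : 0 < r := by positivity
  have hq0 : 0 < D.Q x s y := h.Qf_pos x y hs0
  have e1 : |fderiv ℝ cf y u * (s ^ 2 / D.Q x s y ^ 2)| ≤
      6 * K / κ ^ 2 * (s ^ 2 / r ^ 5) * ‖u‖ := by
    by_cases h0 : fderiv ℝ cf y = 0
    · rw [h0]
      simp only [ContinuousLinearMap.zero_apply, zero_mul, abs_zero]
      positivity
    · have hy := ((hK y).2 h0).2
      have hr6 : r ≤ 6 := by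
        have := norm_sub_le y x
        have := mem_closedBall_zero_iff.1 hx
        have := hs.2
        linarith
      have a1 : |fderiv ℝ cf y u| ≤ K * ‖u‖ := (fderiv ℝ cf y).le_of_opNorm_le (hK y).1 u
      have a2 : s ^ 2 / D.Q x s y ^ 2 ≤ 6 / κ ^ 2 * (s ^ 2 / r ^ 5) := by
        calc s ^ 2 / D.Q x s y ^ 2 ≤ s ^ 2 / (κ * r ^ 2) ^ 2 := by gcongr
          _ = r / κ ^ 2 * (s ^ 2 / r ^ 5) := by field_simp
          _ ≤ 6 / κ ^ 2 * (s ^ 2 / r ^ 5) := by gcongr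
      rw [abs_mul, abs_of_nonneg (by positivity : 0 ≤ s ^ 2 / D.Q x s y ^ 2)]
      calc _ ≤ K * ‖u‖ * (6 / κ ^ 2 * (s ^ 2 / r ^ 5)) := by gcongr
        _ = _ := by ring
  have e2 : |4 * cf y * s ^ 2 * D.g x (y - x) u / D.Q x s y ^ 3| ≤
      4 * D.C / κ ^ 3 * (s ^ 2 / r ^ 5) * ‖u‖ := by
    have a1 : |D.g x (y - x) u| ≤ D.C * r * ‖u‖ := by
      refine ((D.g x).le_of_opNorm₂_le_of_le h.gle (le_add_of_nonneg_right hs0.le) le_rfl)
    have a2 := cf_spec.2.1 y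
    have a3 := cf_spec.2.2.1 y
    rw [abs_div, abs_mul, abs_of_nonneg (by positivity : 0 ≤ 4 * cf y * s ^ 2),
      abs_of_pos (pow_pos hq0 3)]
    calc _ ≤ 4 * 1 * s ^ 2 * (D.C * r * ‖u‖) / (κ * r ^ 2) ^ 3 := by gcongr
      _ = _ := by field_simp
  calc _ ≤ _ := abs_sub _ _
    _ ≤ _ := add_le_add e1 e2
    _ = _ := by unfold ks; ring

theorem Loc.tst_norm (D : Loc) : ∃ K ≥ 0, ∀ x ∈ closedBall (0 : E) 2, ∀ s ∈ Ioc (0 : ℝ) 1,
    ∀ v y : E, ‖d1 (D.tst x s v) y‖ ≤ K * ‖v‖ * ks s (y - x) := by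
  obtain ⟨A, hA0, hA⟩ := D.dps_le_Tst
  have hC : 0 ≤ D.C := (D.herm 0 (by simp)).C_nonneg
  refine ⟨2 * A * (D.C * D.C), by positivity, fun x hx s hs v y => ?_⟩
  have hx3 : x ∈ closedBall (0 : E) 3 := closedBall_subset_closedBall (by norm_num) hx
  have h := D.herm x hx3
  have hs0 := hs.1
  have hk : 0 ≤ ks s (y - x) := by unfold ks; positivity
  have hξ : ∀ u, |D.g x (D.J x v) u| ≤ D.C * (D.C * ‖v‖) * ‖u‖ := fun u =>
    (D.g x).le_of_opNorm₂_le_of_le h.gle ((D.J x).le_of_opNorm_le h.Jle v) le_rfl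
  refine ContinuousLinearMap.opNorm_le_bound₂ _ (by positivity) fun u u' => ?_
  rw [D.d1_tst hx3 hs0, Real.norm_eq_abs]
  have a1 := mul_le_mul (hA x hx s hs y u) (hξ u') (abs_nonneg _) (by positivity)
  have a2 := mul_le_mul (hξ u) (hA x hx s hs y u') (abs_nonneg _) (by positivity)
  rw [← abs_mul] at a1 a2
  calc _ ≤ _ := abs_sub _ _
    _ ≤ _ := add_le_add a1 a2
    _ = _ := by ring

end

end Vale.Agent.P204
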